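import Mathlib

/-!
# P249: importance sampling of coordinates (derandomised Chernoff bound)

Pool job 170 (owner helper21).  Pure finite sums and `Real.exp`.
-/

namespace Vale.Agent.Lib.P249

open Finset

/-- Product formula: the weighted sum over all index maps of an exponential of a sum is a
power. -/
theorem samp_sum_prod {K : Type*} [Fintype K] (P y : K → ℝ) (a : ℝ) (d : ℕ) :
    ∑ κ : Fin d → K, (∏ l, P (κ l)) * Real.exp (a * ∑ l, y (κ l)) =
      (∑ k, P k * Real.exp (a * y k)) ^ d := by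
  rw [Fintype.sum_pow]
  refine Finset.sum_congr rfl fun κ _ => ?_
  rw [Finset.mul_sum, Real.exp_sum, Finset.prod_mul_distrib]

/-- Convexity of the exponential on `[0, 1]`. -/
theorem samp_exp_chord (a y : ℝ) (hy0 : 0 ≤ y) (hy1 : y ≤ 1) :
    Real.exp (a * y) ≤ 1 + (Real.exp a - 1) * y := by
  have h := convexOn_exp.2 (Set.mem_univ (0 : ℝ)) (Set.mem_univ a)
    (sub_nonneg.mpr hy1) hy0 (by ring)
  simp only [smul_eq_mul, mul_zero, zero_add, Real.exp_zero, mul_one] at h
  have h2 : y * a = a * y := by ring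
  rw [h2] at h
  linarith

/-- One-sided moment generating function bound for a sum of `d` independent samples. -/
theorem samp_tail {K : Type*} [Fintype K] (P y : K → ℝ) (hP : ∀ k, 0 ≤ P k)
    (hP1 : ∑ k, P k = 1) (hy0 : ∀ k, 0 ≤ y k) (hy1 : ∀ k, y k ≤ 1) (m : ℝ)
    (hm : ∑ k, P k * y k = m) (a : ℝ) (d : ℕ) :
    ∑ κ : Fin d → K, (∏ l, P (κ l)) * Real.exp (a * ∑ l, y (κ l)) ≤
      Real.exp (d * ((Real.exp a - 1) * m)) := by
  rw [samp_sum_prod, Real.exp_nat_mul]
  have h0 : 0 ≤ ∑ k, P k * Real.exp (a * y k) :=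
    Finset.sum_nonneg fun k _ => mul_nonneg (hP k) (Real.exp_pos _).le
  refine pow_le_pow_left₀ h0 ?_ d
  calc ∑ k, P k * Real.exp (a * y k)
      ≤ ∑ k, P k * (1 + (Real.exp a - 1) * y k) :=
        Finset.sum_le_sum fun k _ =>
          mul_le_mul_of_nonneg_left (samp_exp_chord a (y k) (hy0 k) (hy1 k)) (hP k)
    _ = 1 + (Real.exp a - 1) * m := by
        have h1 : ∀ k, P k * (1 + (Real.exp a - 1) * y k) =
            P k + (Real.exp a - 1) * (P k * y k) := fun k => by ring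
        simp only [h1]
        rw [Finset.sum_add_distrib, ← Finset.mul_sum, hP1, hm]
    _ ≤ Real.exp ((Real.exp a - 1) * m) := by
        have := Real.add_one_le_exp ((Real.exp a - 1) * m)
        linarith

/-- The two elementary numerical bounds on the exponents. -/
theorem samp_num (ε : ℝ) (hε : 0 < ε) (hε1 : ε ≤ 1) :
    (Real.exp (ε / 4) - 1) - ε / 4 * (1 + ε) ≤ -(ε ^ 2 / 8) ∧
      (Real.exp (-(ε / 2)) - 1) + ε / 2 * (1 - ε) ≤ -(ε ^ 2 / 8) := by
  have h1 : |ε / 4| ≤ 1 := by rw [abs_le]; constructor <;> linarith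
  have h2 : |-(ε / 2)| ≤ 1 := by rw [abs_le]; constructor <;> linarith
  have e1 := (abs_le.mp (Real.abs_exp_sub_one_sub_id_le h1)).2
  have e2 := (abs_le.mp (Real.abs_exp_sub_one_sub_id_le h2)).2
  constructor
  · nlinarith [sq_nonneg ε]
  · nlinarith [sq_nonneg ε]

/-- Importance sampling of coordinates: if the relative sizes `w k f / v f` are dominated by
`s k`, then `d ≥ 8 S log (2 |F| + 1) / ε ^ 2` sampled coordinates, reweighted by
`S / (d * s k)`, reproduce every total `v f` up to a factor `1 ± ε`. -/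
theorem sampling {K F : Type*} [Fintype K] [Fintype F]
    (w : K → F → ℝ) (s : K → ℝ) (v : F → ℝ) (S : ℝ)
    (hw : ∀ k f, 0 ≤ w k f) (hv : ∀ f, v f = ∑ k, w k f)
    (hs0 : ∀ k, 0 ≤ s k) (hs : ∀ k f, w k f ≤ s k * v f)
    (hS : S = ∑ k, s k) (hSpos : 0 < S)
    (ε : ℝ) (hε : 0 < ε) (hε1 : ε ≤ 1)
    (d : ℕ) (hd : 8 * S * Real.log (2 * (Fintype.card F : ℝ) + 1) ≤ ε ^ 2 * d) :
    ∃ κ : Fin d → K, ∀ f,
      (1 - ε) * v f ≤ ∑ l, w (κ l) f * (S / ((d : ℝ) * s (κ l))) ∧
      ∑ l, w (κ l) f * (S / ((d : ℝ) * s (κ l))) ≤ (1 + ε) * v f := by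
  classical
  have hK : Nonempty K := by
    by_contra hne
    rw [not_nonempty_iff] at hne
    rw [hS] at hSpos
    simp at hSpos
  rcases isEmpty_or_nonempty F with hF | hF
  · exact ⟨fun _ => Classical.arbitrary K, fun f => isEmptyElim f⟩
  have hv0 : ∀ f, 0 ≤ v f := fun f => by
    rw [hv f]; exact Finset.sum_nonneg fun k _ => hw k f
  have hw0 : ∀ k f, s k * v f = 0 → w k f = 0 := fun k f h =>
    le_antisymm (by have := hs k f; rw [h] at this; exact this) (hw k f)
  -- d is positive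
  have hcard : (1 : ℝ) ≤ (Fintype.card F : ℝ) := by
    exact_mod_cast Fintype.card_pos
  have hlog : 0 < Real.log (2 * (Fintype.card F : ℝ) + 1) := Real.log_pos (by linarith)
  have hdpos : (0 : ℝ) < d := by
    have h1 : 0 < 8 * S * Real.log (2 * (Fintype.card F : ℝ) + 1) := by positivity
    have h2 : 0 < ε ^ 2 * (d : ℝ) := lt_of_lt_of_le h1 hd
    have h3 : 0 < ε ^ 2 := by positivity
    by_contra hneg
    have hneg' := not_lt.mp hneg
    nlinarith
  -- notation
  set μ : ℝ := (d : ℝ) / S with hμ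
  have hμpos : 0 < μ := by positivity
  set P : K → ℝ := fun k => s k / S with hPdef
  set Y : F → K → ℝ := fun f k => w k f / (s k * v f) with hYdef
  have hP0 : ∀ k, 0 ≤ P k := fun k => div_nonneg (hs0 k) hSpos.le
  have hP1 : ∑ k, P k = 1 := by
    simp only [hPdef]
    rw [← Finset.sum_div, ← hS]
    exact div_self hSpos.ne'
  have hY0 : ∀ f k, 0 ≤ Y f k := fun f k =>
    div_nonneg (hw k f) (mul_nonneg (hs0 k) (hv0 f))
  have hY1 : ∀ f k, Y f k ≤ 1 := fun f k =>
    div_le_one_of_le₀ (hs k f) (mul_nonneg (hs0 k) (hv0 f))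
  have hPY : ∀ f, 0 < v f → ∑ k, P k * Y f k = 1 / S := by
    intro f hf
    have hterm : ∀ k, P k * Y f k = w k f / (S * v f) := by
      intro k
      simp only [hPdef, hYdef]
      by_cases hsk : s k = 0
      · have := hw0 k f (by rw [hsk, zero_mul])
        simp [hsk, this]
      · field_simp
    rw [Finset.sum_congr rfl (fun k _ => hterm k), ← Finset.sum_div, ← hv f]
    field_simp
  have hT : ∀ (κ : Fin d → K) f, 0 < v f →
      ∑ l, w (κ l) f * (S / ((d : ℝ) * s (κ l))) = (S * v f / d) * ∑ l, Y f (κ l) := by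
    intro κ f hf
    rw [Finset.mul_sum]
    refine Finset.sum_congr rfl fun l _ => ?_
    simp only [hYdef]
    by_cases hsk : s (κ l) = 0
    · have := hw0 (κ l) f (by rw [hsk, zero_mul])
      simp [this]
    · field_simp
  have hzero : ∀ (κ : Fin d → K) f, v f = 0 →
      ((1 - ε) * v f ≤ ∑ l, w (κ l) f * (S / ((d : ℝ) * s (κ l))) ∧
      ∑ l, w (κ l) f * (S / ((d : ℝ) * s (κ l))) ≤ (1 + ε) * v f) := by
    intro κ f hf
    have h0 : ∀ k, w k f = 0 := fun k => hw0 k f (by rw [hf, mul_zero])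
    simp [h0, hf]
  by_contra hcon
  simp only [not_exists, not_forall] at hcon
  set θ : ℝ := ε / 4 with hθ
  set lam : ℝ := ε / 2 with hlam
  set Fpos : Finset F := Finset.univ.filter fun f => 0 < v f with hFpos
  set Φ : (Fin d → K) → ℝ := fun κ => ∑ f ∈ Fpos,
    (Real.exp (θ * ∑ l, Y f (κ l)) * Real.exp (-(θ * (1 + ε) * μ)) +
      Real.exp (-lam * ∑ l, Y f (κ l)) * Real.exp (lam * (1 - ε) * μ)) with hΦdef
  have hΦ : ∀ κ, 1 ≤ Φ κ := by
    intro κ
    obtain ⟨f, hf⟩ := hcon κ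
    have hvf : 0 < v f := by
      rcases (hv0 f).lt_or_eq with h | h
      · exact h
      · exact absurd (hzero κ f h.symm) hf
    have hmem : f ∈ Fpos := Finset.mem_filter.mpr ⟨Finset.mem_univ f, hvf⟩
    have hA : 0 < S * v f / d := by positivity
    have hsingle := Finset.single_le_sum (f := fun f => Real.exp (θ * ∑ l, Y f (κ l)) *
      Real.exp (-(θ * (1 + ε) * μ)) +
      Real.exp (-lam * ∑ l, Y f (κ l)) * Real.exp (lam * (1 - ε) * μ))
      (fun g _ => by positivity) hmem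
    refine le_trans ?_ hsingle
    rw [not_and_or, not_le, not_le, hT κ f hvf] at hf
    have p1 : 0 < Real.exp (θ * ∑ l, Y f (κ l)) * Real.exp (-(θ * (1 + ε) * μ)) := by
      positivity
    have p2 : 0 < Real.exp (-lam * ∑ l, Y f (κ l)) * Real.exp (lam * (1 - ε) * μ) := by
      positivity
    rcases hf with h | h
    · -- lower tail
      have key : (S * v f / d) * ((1 - ε) * μ) = (1 - ε) * v f := by
        simp only [hμ]; field_simp
      have hlt : ∑ l, Y f (κ l) < (1 - ε) * μ :=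
        lt_of_mul_lt_mul_left (by rw [key]; exact h) hA.le
      have : 1 ≤ Real.exp (-lam * ∑ l, Y f (κ l)) * Real.exp (lam * (1 - ε) * μ) := by
        rw [← Real.exp_add]
        apply Real.one_le_exp
        have hl : 0 < lam := by simp only [hlam]; positivity
        nlinarith
      linarith
    · -- upper tail
      have key : (S * v f / d) * ((1 + ε) * μ) = (1 + ε) * v f := by
        simp only [hμ]; field_simp
      have hlt : (1 + ε) * μ < ∑ l, Y f (κ l) :=
        lt_of_mul_lt_mul_left (by rw [key]; exact h) hA.le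
      have : 1 ≤ Real.exp (θ * ∑ l, Y f (κ l)) * Real.exp (-(θ * (1 + ε) * μ)) := by
        rw [← Real.exp_add]
        apply Real.one_le_exp
        have hl : 0 < θ := by simp only [hθ]; positivity
        nlinarith
      linarith
  -- the weighted count
  have h1 : (1 : ℝ) = ∑ κ : Fin d → K, ∏ l, P (κ l) := by
    rw [← Fintype.sum_pow, hP1, one_pow]
  have h2 : ∑ κ : Fin d → K, ∏ l, P (κ l) ≤ ∑ κ : Fin d → K, (∏ l, P (κ l)) * Φ κ :=
    Finset.sum_le_sum fun κ _ =>
      le_mul_of_one_le_right (Finset.prod_nonneg fun l _ => hP0 _) (hΦ κ)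
  have h3 : ∑ κ : Fin d → K, (∏ l, P (κ l)) * Φ κ = ∑ f ∈ Fpos,
      (Real.exp (-(θ * (1 + ε) * μ)) *
          ∑ κ : Fin d → K, (∏ l, P (κ l)) * Real.exp (θ * ∑ l, Y f (κ l)) +
        Real.exp (lam * (1 - ε) * μ) *
          ∑ κ : Fin d → K, (∏ l, P (κ l)) * Real.exp (-lam * ∑ l, Y f (κ l))) := by
    have hexp : ∀ κ : Fin d → K, (∏ l, P (κ l)) * Φ κ = ∑ f ∈ Fpos, (∏ l, P (κ l)) *
        (Real.exp (θ * ∑ l, Y f (κ l)) * Real.exp (-(θ * (1 + ε) * μ)) +
          Real.exp (-lam * ∑ l, Y f (κ l)) * Real.exp (lam * (1 - ε) * μ)) :=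
      fun κ => Finset.mul_sum _ _ _
    rw [Finset.sum_congr rfl (fun κ _ => hexp κ), Finset.sum_comm]
    refine Finset.sum_congr rfl fun f _ => ?_
    rw [Finset.mul_sum, Finset.mul_sum, ← Finset.sum_add_distrib]
    refine Finset.sum_congr rfl fun κ _ => ?_
    ring
  obtain ⟨n1, n2⟩ := samp_num ε hε hε1
  have h4 : ∀ f ∈ Fpos,
      (Real.exp (-(θ * (1 + ε) * μ)) *
          ∑ κ : Fin d → K, (∏ l, P (κ l)) * Real.exp (θ * ∑ l, Y f (κ l)) +
        Real.exp (lam * (1 - ε) * μ) *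
          ∑ κ : Fin d → K, (∏ l, P (κ l)) * Real.exp (-lam * ∑ l, Y f (κ l))) ≤
        2 * Real.exp (-(μ * (ε ^ 2 / 8))) := by
    intro f hf
    have hvf : 0 < v f := (Finset.mem_filter.mp hf).2
    have t1 := samp_tail P (Y f) hP0 hP1 (hY0 f) (hY1 f) (1 / S) (hPY f hvf) θ d
    have t2 := samp_tail P (Y f) hP0 hP1 (hY0 f) (hY1 f) (1 / S) (hPY f hvf) (-lam) d
    have b1 : Real.exp (-(θ * (1 + ε) * μ)) *
        ∑ κ : Fin d → K, (∏ l, P (κ l)) * Real.exp (θ * ∑ l, Y f (κ l)) ≤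
        Real.exp (-(μ * (ε ^ 2 / 8))) := by
      calc Real.exp (-(θ * (1 + ε) * μ)) *
            ∑ κ : Fin d → K, (∏ l, P (κ l)) * Real.exp (θ * ∑ l, Y f (κ l))
          ≤ Real.exp (-(θ * (1 + ε) * μ)) * Real.exp (d * ((Real.exp θ - 1) * (1 / S))) :=
            mul_le_mul_of_nonneg_left t1 (Real.exp_pos _).le
        _ = Real.exp (μ * ((Real.exp θ - 1) - θ * (1 + ε))) := by
            rw [← Real.exp_add]
            congr 1
            simp only [hμ]
            field_simp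
            ring
        _ ≤ Real.exp (-(μ * (ε ^ 2 / 8))) := by
            apply Real.exp_le_exp.mpr
            have : (Real.exp θ - 1) - θ * (1 + ε) ≤ -(ε ^ 2 / 8) := n1
            nlinarith
    have b2 : Real.exp (lam * (1 - ε) * μ) *
        ∑ κ : Fin d → K, (∏ l, P (κ l)) * Real.exp (-lam * ∑ l, Y f (κ l)) ≤
        Real.exp (-(μ * (ε ^ 2 / 8))) := by
      calc Real.exp (lam * (1 - ε) * μ) *
            ∑ κ : Fin d → K, (∏ l, P (κ l)) * Real.exp (-lam * ∑ l, Y f (κ l))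
          ≤ Real.exp (lam * (1 - ε) * μ) *
              Real.exp (d * ((Real.exp (-lam) - 1) * (1 / S))) :=
            mul_le_mul_of_nonneg_left t2 (Real.exp_pos _).le
        _ = Real.exp (μ * ((Real.exp (-lam) - 1) + lam * (1 - ε))) := by
            rw [← Real.exp_add]
            congr 1
            simp only [hμ]
            field_simp
            ring
        _ ≤ Real.exp (-(μ * (ε ^ 2 / 8))) := by
            apply Real.exp_le_exp.mpr
            have : (Real.exp (-lam) - 1) + lam * (1 - ε) ≤ -(ε ^ 2 / 8) := n2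
            nlinarith
    linarith
  -- the final count
  have h5 : ∑ f ∈ Fpos,
      (Real.exp (-(θ * (1 + ε) * μ)) *
          ∑ κ : Fin d → K, (∏ l, P (κ l)) * Real.exp (θ * ∑ l, Y f (κ l)) +
        Real.exp (lam * (1 - ε) * μ) *
          ∑ κ : Fin d → K, (∏ l, P (κ l)) * Real.exp (-lam * ∑ l, Y f (κ l))) ≤
      (Fintype.card F : ℝ) * (2 * Real.exp (-(μ * (ε ^ 2 / 8)))) := by
    refine le_trans (Finset.sum_le_sum h4) ?_
    rw [Finset.sum_const, nsmul_eq_mul]
    have hc : (Fpos.card : ℝ) ≤ (Fintype.card F : ℝ) := by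
      exact_mod_cast Finset.card_le_univ Fpos
    exact mul_le_mul_of_nonneg_right hc (by positivity)
  have h6 : Real.exp (-(μ * (ε ^ 2 / 8))) ≤ (2 * (Fintype.card F : ℝ) + 1)⁻¹ := by
    have hL : Real.log (2 * (Fintype.card F : ℝ) + 1) ≤ μ * (ε ^ 2 / 8) := by
      have e : μ * (ε ^ 2 / 8) = ε ^ 2 * d / (8 * S) := by
        simp only [hμ]; field_simp
      rw [e, le_div_iff₀ (by positivity)]
      linarith
    calc Real.exp (-(μ * (ε ^ 2 / 8)))
        ≤ Real.exp (-(Real.log (2 * (Fintype.card F : ℝ) + 1))) :=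
          Real.exp_le_exp.mpr (by linarith)
      _ = (2 * (Fintype.card F : ℝ) + 1)⁻¹ := by
          rw [Real.exp_neg, Real.exp_log (by linarith)]
  have h7 : (Fintype.card F : ℝ) * (2 * (2 * (Fintype.card F : ℝ) + 1)⁻¹) < 1 := by
    have hpos : (0 : ℝ) < 2 * (Fintype.card F : ℝ) + 1 := by linarith
    rw [show (Fintype.card F : ℝ) * (2 * (2 * (Fintype.card F : ℝ) + 1)⁻¹) =
      (2 * (Fintype.card F : ℝ)) / (2 * (Fintype.card F : ℝ) + 1) by
        rw [div_eq_mul_inv]; ring]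
    rw [div_lt_one hpos]
    linarith
  have h8 : (Fintype.card F : ℝ) * (2 * Real.exp (-(μ * (ε ^ 2 / 8)))) ≤
      (Fintype.card F : ℝ) * (2 * (2 * (Fintype.card F : ℝ) + 1)⁻¹) :=
    mul_le_mul_of_nonneg_left (by linarith) (by linarith)
  have hfinal : (1 : ℝ) < 1 := by
    calc (1 : ℝ) = ∑ κ : Fin d → K, ∏ l, P (κ l) := h1
      _ ≤ ∑ κ : Fin d → K, (∏ l, P (κ l)) * Φ κ := h2
      _ = _ := h3
      _ ≤ _ := h5
      _ ≤ _ := h8
      _ < 1 := h7
  exact lt_irrefl _ hfinal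

end Vale.Agent.Lib.P249
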