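import Vale.Agent.Lib.P249.helper62.GridDefs

/-!
# Concentration on the grid with discrete Gaussian weights (P249, grid lower bound, job GRID-F)

`grid_conc_of_pair`: the moment bound for differences of Lipschitz functions on the grid, from
the pair inequality `grid_pair` (taken here as a hypothesis, so that this file depends only on
the shared definitions).
-/

open Finset
open Vale.Agent.Lib.P249.H62

namespace Vale.Agent.Lib.P249.H52

/-- A power is bounded by exponentials: `|r|^q ≤ (q/(e t))^q (e^{t r} + e^{-t r})`. -/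
theorem abs_rpow_le_exp_add (r q t : ℝ) (hq : 0 < q) (ht : 0 < t) :
    |r| ^ q ≤ (q / (Real.exp 1 * t)) ^ q * (Real.exp (t * r) + Real.exp (-(t * r))) := by
  have hu0 : 0 ≤ t * |r| / q := by positivity
  have h1 : t * |r| / q ≤ Real.exp (t * |r| / q - 1) := by
    have := Real.add_one_le_exp (t * |r| / q - 1)
    linarith
  have h2 : (t * |r| / q) ^ q ≤ Real.exp (t * |r| / q - 1) ^ q :=
    Real.rpow_le_rpow hu0 h1 hq.le
  have h3 : Real.exp (t * |r| / q - 1) ^ q = Real.exp (t * |r|) * Real.exp (-q) := by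
    rw [← Real.exp_mul, ← Real.exp_add]
    congr 1
    field_simp
    ring
  have h4 : |r| ^ q = (t * |r| / q) ^ q * (q / t) ^ q := by
    rw [← Real.mul_rpow hu0 (by positivity)]
    congr 1
    field_simp
  have h5 : (q / (Real.exp 1 * t)) ^ q = (q / t) ^ q * Real.exp (-q) := by
    have e : q / (Real.exp 1 * t) = (q / t) * Real.exp (-1) := by
      rw [Real.exp_neg]
      field_simp
    rw [e, Real.mul_rpow (by positivity) (Real.exp_pos _).le, ← Real.exp_mul]
    congr 2
    ring
  have h6 : Real.exp (t * |r|) ≤ Real.exp (t * r) + Real.exp (-(t * r)) := by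
    rcases abs_cases r with ⟨h, _⟩ | ⟨h, _⟩
    · rw [h]
      linarith [Real.exp_pos (-(t * r))]
    · rw [h]
      have e : t * -r = -(t * r) := by ring
      rw [e]
      linarith [Real.exp_pos (t * r)]
  have hqt : 0 ≤ (q / t) ^ q := by positivity
  calc |r| ^ q = (t * |r| / q) ^ q * (q / t) ^ q := h4
    _ ≤ (Real.exp (t * |r|) * Real.exp (-q)) * (q / t) ^ q := by
        rw [← h3]
        exact mul_le_mul_of_nonneg_right h2 hqt
    _ = (q / (Real.exp 1 * t)) ^ q * Real.exp (t * |r|) := by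
        rw [h5]
        ring
    _ ≤ (q / (Real.exp 1 * t)) ^ q * (Real.exp (t * r) + Real.exp (-(t * r))) :=
        mul_le_mul_of_nonneg_left h6 (by positivity)

theorem gPhi_nonneg (M k : ℕ) (x : Fin k → Fin (2 * M + 1)) : 0 ≤ gPhi M k x := by
  unfold gPhi
  exact Finset.prod_nonneg fun j _ => (Real.exp_pos _).le

theorem gdist2_nonneg (M k : ℕ) (x y : Fin k → Fin (2 * M + 1)) : 0 ≤ gdist2 M k x y := by
  unfold gdist2
  exact Finset.sum_nonneg fun j _ => sq_nonneg _

/-- The two-point Laplace bound on the grid, from the pair inequality. -/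
theorem grid_laplace_of_pair (M : ℕ) (hM : 1 ≤ M) (k : ℕ)
    (hpair : ∀ f g : (Fin k → Fin (2 * M + 1)) → ℝ,
      (∀ x y, g x ≤ f y + gdist2 M k x y / (2 * (M : ℝ) ^ 2)) →
      (∑ x, gPhi M k x * Real.exp (g x)) * (∑ y, gPhi M k y * Real.exp (-f y))
        ≤ (gZ M + 1) ^ (2 * k))
    (Lam : ℝ) (h : (Fin k → Fin (2 * M + 1)) → ℝ)
    (hlip : ∀ x y, |h x - h y| ≤ Lam * Real.sqrt (gdist2 M k x y)) (t : ℝ) (ht : 0 ≤ t) :
    ∑ x, ∑ y, gPhi M k x * gPhi M k y * Real.exp (t * (h x - h y))
      ≤ (gZ M + 1) ^ (2 * k) * Real.exp (t ^ 2 * Lam ^ 2 * (M : ℝ) ^ 2 / 2) := by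
  have hMpos : (0 : ℝ) < M := by exact_mod_cast hM
  have key := hpair (fun y => t * h y)
    (fun x => t * h x - t ^ 2 * Lam ^ 2 * (M : ℝ) ^ 2 / 2) (by
      intro x y
      have hd := gdist2_nonneg M k x y
      have hr := Real.sqrt_nonneg (gdist2 M k x y)
      have hr2 := Real.sq_sqrt hd
      have h1 : h x - h y ≤ Lam * Real.sqrt (gdist2 M k x y) :=
        le_trans (le_abs_self _) (hlip x y)
      have h2 : t * (h x - h y) ≤ t * (Lam * Real.sqrt (gdist2 M k x y)) :=
        mul_le_mul_of_nonneg_left h1 ht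
      have h3 : t * (Lam * Real.sqrt (gdist2 M k x y)) ≤
          t ^ 2 * Lam ^ 2 * (M : ℝ) ^ 2 / 2 + gdist2 M k x y / (2 * (M : ℝ) ^ 2) := by
        have h4 : gdist2 M k x y / (2 * (M : ℝ) ^ 2) =
            (Real.sqrt (gdist2 M k x y) / M) ^ 2 / 2 := by
          rw [div_pow, hr2]
          field_simp
        have h5 : t * (Lam * Real.sqrt (gdist2 M k x y)) =
            t * Lam * M * (Real.sqrt (gdist2 M k x y) / M) := by
          field_simp
        rw [h4, h5]
        nlinarith [sq_nonneg (t * Lam * M - Real.sqrt (gdist2 M k x y) / M)]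
      linarith)
  have hexp : ∀ x y, gPhi M k x * gPhi M k y * Real.exp (t * (h x - h y)) =
      Real.exp (t ^ 2 * Lam ^ 2 * (M : ℝ) ^ 2 / 2) *
        ((gPhi M k x * Real.exp (t * h x - t ^ 2 * Lam ^ 2 * (M : ℝ) ^ 2 / 2)) *
          (gPhi M k y * Real.exp (-(t * h y)))) := by
    intro x y
    have : Real.exp (t * (h x - h y)) = Real.exp (t ^ 2 * Lam ^ 2 * (M : ℝ) ^ 2 / 2) *
        (Real.exp (t * h x - t ^ 2 * Lam ^ 2 * (M : ℝ) ^ 2 / 2) * Real.exp (-(t * h y))) := by
      rw [← Real.exp_add, ← Real.exp_add]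
      congr 1
      ring
    rw [this]
    ring
  simp only [hexp]
  simp only [← Finset.mul_sum, ← Finset.sum_mul]
  rw [mul_comm]
  exact mul_le_mul_of_nonneg_right key (Real.exp_pos _).le

/-- **Concentration on the grid** (job GRID-F), from the pair inequality: moments of the
differences of a function that is `Lam`-Lipschitz for the Euclidean distance of the grid. -/
theorem grid_conc_of_pair (M : ℕ) (hM : 1 ≤ M) (k : ℕ)
    (hpair : ∀ f g : (Fin k → Fin (2 * M + 1)) → ℝ,
      (∀ x y, g x ≤ f y + gdist2 M k x y / (2 * (M : ℝ) ^ 2)) →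
      (∑ x, gPhi M k x * Real.exp (g x)) * (∑ y, gPhi M k y * Real.exp (-f y))
        ≤ (gZ M + 1) ^ (2 * k))
    (q : ℝ) (hq : 1 ≤ q) (Lam : ℝ) (hLam : 0 ≤ Lam)
    (h : (Fin k → Fin (2 * M + 1)) → ℝ)
    (hlip : ∀ x y, |h x - h y| ≤ Lam * Real.sqrt (gdist2 M k x y)) :
    ∑ x, ∑ y, gPhi M k x * gPhi M k y * |h x - h y| ^ q
      ≤ 2 * (gZ M + 1) ^ (2 * k) * (q * (M : ℝ) ^ 2 / Real.exp 1) ^ (q / 2) * Lam ^ q := by
  have hq0 : 0 < q := by linarith
  have hMpos : (0 : ℝ) < M := by exact_mod_cast hM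
  rcases hLam.eq_or_lt with hL0 | hLpos
  · subst hL0
    have hz : ∀ x y, |h x - h y| = 0 := by
      intro x y
      have := hlip x y
      rw [zero_mul] at this
      exact le_antisymm this (abs_nonneg _)
    simp only [hz, Real.zero_rpow hq0.ne', mul_zero, Finset.sum_const_zero]
    exact le_refl _
  · have hsqpos : 0 < Real.sqrt q := Real.sqrt_pos.mpr hq0
    have hsq2 : Real.sqrt q * Real.sqrt q = q := Real.mul_self_sqrt hq0.le
    have htpos : 0 < Real.sqrt q / (Lam * M) := by positivity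
    have hc0 : (Real.sqrt q / (Lam * M)) ^ 2 * Lam ^ 2 * (M : ℝ) ^ 2 / 2 = q / 2 := by
      have : (Real.sqrt q / (Lam * M)) ^ 2 * Lam ^ 2 * (M : ℝ) ^ 2 = Real.sqrt q * Real.sqrt q := by
        field_simp
      rw [this, hsq2]
    have L1 := grid_laplace_of_pair M hM k hpair Lam h hlip (Real.sqrt q / (Lam * M)) htpos.le
    rw [hc0] at L1
    have L2 : ∑ x, ∑ y, gPhi M k x * gPhi M k y *
        Real.exp (-(Real.sqrt q / (Lam * M) * (h x - h y))) ≤
        (gZ M + 1) ^ (2 * k) * Real.exp (q / 2) := by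
      rw [Finset.sum_comm]
      refine le_trans (le_of_eq ?_) L1
      refine Finset.sum_congr rfl fun x _ => Finset.sum_congr rfl fun y _ => ?_
      rw [mul_comm (gPhi M k y) (gPhi M k x)]
      congr 2
      ring
    have hpt : ∀ x y, gPhi M k x * gPhi M k y * |h x - h y| ^ q ≤
        (q / (Real.exp 1 * (Real.sqrt q / (Lam * M)))) ^ q *
          (gPhi M k x * gPhi M k y * Real.exp (Real.sqrt q / (Lam * M) * (h x - h y)) +
            gPhi M k x * gPhi M k y * Real.exp (-(Real.sqrt q / (Lam * M) * (h x - h y)))) := by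
      intro x y
      have h1 := abs_rpow_le_exp_add (h x - h y) q (Real.sqrt q / (Lam * M)) hq0 htpos
      have hw : 0 ≤ gPhi M k x * gPhi M k y :=
        mul_nonneg (gPhi_nonneg M k x) (gPhi_nonneg M k y)
      calc gPhi M k x * gPhi M k y * |h x - h y| ^ q
          ≤ gPhi M k x * gPhi M k y * ((q / (Real.exp 1 * (Real.sqrt q / (Lam * M)))) ^ q *
              (Real.exp (Real.sqrt q / (Lam * M) * (h x - h y)) +
                Real.exp (-(Real.sqrt q / (Lam * M) * (h x - h y))))) :=
            mul_le_mul_of_nonneg_left h1 hw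
        _ = _ := by ring
    have hu0 : 0 < q / (Real.exp 1 * (Real.sqrt q / (Lam * M))) := by positivity
    have hsum : ∑ x, ∑ y, gPhi M k x * gPhi M k y * |h x - h y| ^ q ≤
        (q / (Real.exp 1 * (Real.sqrt q / (Lam * M)))) ^ q *
          (2 * ((gZ M + 1) ^ (2 * k) * Real.exp (q / 2))) := by
      calc ∑ x, ∑ y, gPhi M k x * gPhi M k y * |h x - h y| ^ q
          ≤ ∑ x, ∑ y, (q / (Real.exp 1 * (Real.sqrt q / (Lam * M)))) ^ q *
            (gPhi M k x * gPhi M k y * Real.exp (Real.sqrt q / (Lam * M) * (h x - h y)) +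
              gPhi M k x * gPhi M k y * Real.exp (-(Real.sqrt q / (Lam * M) * (h x - h y)))) :=
            Finset.sum_le_sum fun x _ => Finset.sum_le_sum fun y _ => hpt x y
        _ = (q / (Real.exp 1 * (Real.sqrt q / (Lam * M)))) ^ q *
            ((∑ x, ∑ y, gPhi M k x * gPhi M k y *
                Real.exp (Real.sqrt q / (Lam * M) * (h x - h y))) +
              ∑ x, ∑ y, gPhi M k x * gPhi M k y *
                Real.exp (-(Real.sqrt q / (Lam * M) * (h x - h y)))) := by
            simp only [← Finset.mul_sum, Finset.sum_add_distrib]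
        _ ≤ _ := by
            apply mul_le_mul_of_nonneg_left _ (by positivity)
            linarith
    refine le_trans hsum (le_of_eq ?_)
    have hsepos : 0 < Real.exp (1 / 2) := Real.exp_pos _
    have hse : Real.exp 1 = Real.exp (1 / 2) * Real.exp (1 / 2) := by
      rw [← Real.exp_add]
      norm_num
    have hseq : Real.exp (q / 2) = Real.exp (1 / 2) ^ q := by
      rw [← Real.exp_mul]
      congr 1
      ring
    have hu : q / (Real.exp 1 * (Real.sqrt q / (Lam * M))) * Real.exp (1 / 2) =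
        (Real.sqrt q * M / Real.exp (1 / 2)) * Lam := by
      rw [hse]
      field_simp
      nlinarith [hsq2]
    have hA : q * (M : ℝ) ^ 2 / Real.exp 1 = (Real.sqrt q * M / Real.exp (1 / 2)) ^ (2 : ℝ) := by
      rw [Real.rpow_two, hse, div_pow, mul_pow, Real.sq_sqrt hq0.le]
      ring
    have hB : (q * (M : ℝ) ^ 2 / Real.exp 1) ^ (q / 2) =
        (Real.sqrt q * M / Real.exp (1 / 2)) ^ q := by
      rw [hA, ← Real.rpow_mul (by positivity)]
      congr 1
      ring
    have hC : (q / (Real.exp 1 * (Real.sqrt q / (Lam * M)))) ^ q * Real.exp (q / 2) =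
        (Real.sqrt q * M / Real.exp (1 / 2)) ^ q * Lam ^ q := by
      rw [hseq, ← Real.mul_rpow hu0.le hsepos.le, hu, Real.mul_rpow (by positivity) hLpos.le]
    rw [hB]
    calc (q / (Real.exp 1 * (Real.sqrt q / (Lam * M)))) ^ q *
          (2 * ((gZ M + 1) ^ (2 * k) * Real.exp (q / 2)))
        = 2 * (gZ M + 1) ^ (2 * k) *
          ((q / (Real.exp 1 * (Real.sqrt q / (Lam * M)))) ^ q * Real.exp (q / 2)) := by ring
      _ = 2 * (gZ M + 1) ^ (2 * k) * (Real.sqrt q * M / Real.exp (1 / 2)) ^ q * Lam ^ q := by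
          rw [hC]
          ring

end Vale.Agent.Lib.P249.H52
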