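import Vale.Agent.Lib.P249.helper44.GridOne
import Vale.Agent.Lib.P249.helper3.Tensor
import Vale.Agent.Lib.P249.helper40.GridPairOf
import Vale.Agent.Lib.P249.helper52.GridConc

/-!
# Grid concentration, closed form (P249 grid lower bound, jobs GRID-E and GRID-F)

`grid_pair` and `grid_conc` with the exact statements of the job list, assembled from
`grid_one` (helper44), `tensor` (helper3), `grid_pair_of` (helper40) and `grid_conc_of_pair`.
-/

open Finset
open Vale.Agent.Lib.P249.H62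

namespace Vale.Agent.Lib.P249.H52

/-- Job GRID-E: the pair form of the grid concentration. -/
theorem grid_pair (M : ℕ) (hM : 1 ≤ M) (k : ℕ) (f g : (Fin k → Fin (2 * M + 1)) → ℝ)
    (h : ∀ x y, g x ≤ f y + gdist2 M k x y / (2 * (M : ℝ) ^ 2)) :
    (∑ x, gPhi M k x * Real.exp (g x)) * (∑ y, gPhi M k y * Real.exp (-f y))
      ≤ (gZ M + 1) ^ (2 * k) :=
  Vale.Agent.Lib.P249.H40.grid_pair_of M k (Vale.Agent.Lib.P249.H44.grid_one M hM)
    (fun h1 => Vale.Agent.Lib.P249.H3grid.tensor (gphi M) (fun _ => (Real.exp_pos _).le)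
      (fun t t' => (gv M t - gv M t') ^ 2 / (2 * (M : ℝ) ^ 2)) ((gZ M + 1) ^ 2) (sq_nonneg _)
      h1 k) f g h

/-- Job GRID-F: moments of differences of Lipschitz functions on the grid. -/
theorem grid_conc (M : ℕ) (hM : 1 ≤ M) (k : ℕ) (q : ℝ) (hq : 1 ≤ q) (Lam : ℝ) (hLam : 0 ≤ Lam)
    (h : (Fin k → Fin (2 * M + 1)) → ℝ)
    (hlip : ∀ x y, |h x - h y| ≤ Lam * Real.sqrt (gdist2 M k x y)) :
    ∑ x, ∑ y, gPhi M k x * gPhi M k y * |h x - h y| ^ q
      ≤ 2 * (gZ M + 1) ^ (2 * k) * (q * (M : ℝ) ^ 2 / Real.exp 1) ^ (q / 2) * Lam ^ q :=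
  grid_conc_of_pair M hM k (fun f g hfg => grid_pair M hM k f g hfg) q hq Lam hLam h hlip

end Vale.Agent.Lib.P249.H52
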