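import Mathlib

/-!
# A discrete Prékopa–Leindler inequality on the integers

`disc_pl_norm`: for finitely supported `F, G, H : ℤ → [0, ∞)` with `F, G ≤ 1`, both attaining
`1`, and `min (F x) (G y) ≤ H (x + y)`: `∑ F + ∑ G - 1 ≤ ∑ H`.

`disc_pl`: for finitely supported `F, G, H ≥ 0` with `F x * G y ≤ H (x + y) ^ 2` and
`F x * G y ≤ m ^ 2`: `2 * sqrt (∑ F * ∑ G) ≤ ∑ H + m`.

The proof of the first is the layer-cake formula over `t ∈ (0, 1]` and the sumset bound
`#(A + B) ≥ #A + #B - 1` for nonempty finite sets of integers.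
-/

open MeasureTheory Set
open scoped Pointwise

namespace Vale.Agent.Lib.P249.H52

/-- The layer-cake formula for one value: `∫₀¹ 1[t ≤ h] dt = min h 1` for `h ≥ 0`. -/
theorem integral_indicator_le (h : ℝ) (hh : 0 ≤ h) :
    ∫ t in (0 : ℝ)..1, (if t ≤ h then (1 : ℝ) else 0) = min h 1 := by
  rcases le_or_gt 1 h with h1 | h1
  · rw [min_eq_right h1]
    have : ∫ t in (0 : ℝ)..1, (if t ≤ h then (1 : ℝ) else 0) = ∫ t in (0 : ℝ)..1, (1 : ℝ) := by
      apply intervalIntegral.integral_congr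
      intro t ht
      rw [uIcc_of_le zero_le_one] at ht
      simp only
      rw [if_pos (le_trans ht.2 h1)]
    rw [this]
    simp
  · rw [min_eq_left h1.le]
    have hint : ∀ a b : ℝ, IntervalIntegrable (fun t : ℝ => if t ≤ h then (1 : ℝ) else 0)
        volume a b := by
      intro a b
      apply Antitone.intervalIntegrable
      intro s t hst
      by_cases ht : t ≤ h
      · simp [ht, le_trans hst ht]
      · simp only [ht, if_false]
        split_ifs <;> norm_num
    rw [← intervalIntegral.integral_add_adjacent_intervals (hint 0 h) (hint h 1)]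
    have e1 : ∫ t in (0 : ℝ)..h, (if t ≤ h then (1 : ℝ) else 0) = ∫ t in (0 : ℝ)..h, (1 : ℝ) := by
      apply intervalIntegral.integral_congr
      intro t ht
      rw [uIcc_of_le hh] at ht
      simp only
      rw [if_pos ht.2]
    have e2 : ∫ t in h..1, (if t ≤ h then (1 : ℝ) else 0) = 0 := by
      rw [intervalIntegral.integral_of_le h1.le]
      have : ∫ t in Ioc h 1, (if t ≤ h then (1 : ℝ) else 0) = ∫ t in Ioc h 1, (0 : ℝ) := by
        apply setIntegral_congr_fun measurableSet_Ioc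
        intro t ht
        simp only
        rw [if_neg (not_le.mpr ht.1)]
      rw [this]
      simp
    rw [e1, e2]
    simp

/-- Threshold counts are interval integrable (they are antitone in the threshold). -/
theorem intervalIntegrable_count (f : ℤ → ℝ) (S : Finset ℤ) (a b : ℝ) :
    IntervalIntegrable (fun t : ℝ => ∑ x ∈ S, (if t ≤ f x then (1 : ℝ) else 0)) volume a b := by
  apply Antitone.intervalIntegrable
  intro s t hst
  apply Finset.sum_le_sum
  intro x _
  by_cases ht : t ≤ f x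
  · simp [ht, le_trans hst ht]
  · simp only [ht, if_false]
    split_ifs <;> norm_num

/-- Layer cake for a finite sum: `∫₀¹ #{x ∈ S | t ≤ f x} dt = ∑_{x ∈ S} min (f x) 1`. -/
theorem layer_cake_sum (f : ℤ → ℝ) (hf : ∀ x, 0 ≤ f x) (S : Finset ℤ) :
    ∫ t in (0 : ℝ)..1, ∑ x ∈ S, (if t ≤ f x then (1 : ℝ) else 0) = ∑ x ∈ S, min (f x) 1 := by
  rw [intervalIntegral.integral_finsetSum]
  · exact Finset.sum_congr rfl fun x _ => integral_indicator_le (f x) (hf x)
  · intro x _
    have := intervalIntegrable_count f {x} 0 1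
    simpa only [Finset.sum_singleton] using this

/-- **Discrete Prékopa–Leindler, normalized form.** -/
theorem disc_pl_norm (F G H : ℤ → ℝ) (S T U : Finset ℤ)
    (hF0 : ∀ x, 0 ≤ F x) (hG0 : ∀ x, 0 ≤ G x) (hH0 : ∀ x, 0 ≤ H x)
    (hF1 : ∀ x, F x ≤ 1) (hG1 : ∀ x, G x ≤ 1)
    (hS : ∀ x, x ∉ S → F x = 0) (hT : ∀ x, x ∉ T → G x = 0) (hU : ∀ x, x ∉ U → H x = 0)
    (x0 y0 : ℤ) (hx0 : F x0 = 1) (hy0 : G y0 = 1)
    (hFGH : ∀ x y, min (F x) (G y) ≤ H (x + y)) :
    ∑ x ∈ S, F x + ∑ y ∈ T, G y - 1 ≤ ∑ z ∈ U, H z := by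
  classical
  have hx0S : x0 ∈ S := by
    by_contra h
    have := hS x0 h
    rw [hx0] at this
    exact one_ne_zero this
  have hy0T : y0 ∈ T := by
    by_contra h
    have := hT y0 h
    rw [hy0] at this
    exact one_ne_zero this
  have hFsum : ∑ x ∈ S, F x =
      ∫ t in (0 : ℝ)..1, ∑ x ∈ S, (if t ≤ F x then (1 : ℝ) else 0) := by
    rw [layer_cake_sum F hF0 S]
    exact Finset.sum_congr rfl fun x _ => (min_eq_left (hF1 x)).symm
  have hGsum : ∑ y ∈ T, G y =
      ∫ t in (0 : ℝ)..1, ∑ y ∈ T, (if t ≤ G y then (1 : ℝ) else 0) := by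
    rw [layer_cake_sum G hG0 T]
    exact Finset.sum_congr rfl fun x _ => (min_eq_left (hG1 x)).symm
  have hHsum : ∫ t in (0 : ℝ)..1, ∑ z ∈ U, (if t ≤ H z then (1 : ℝ) else 0) ≤ ∑ z ∈ U, H z := by
    rw [layer_cake_sum H hH0 U]
    exact Finset.sum_le_sum fun z _ => min_le_left _ _
  refine le_trans ?_ hHsum
  rw [hFsum, hGsum]
  have hcomb : (∫ t in (0 : ℝ)..1, ∑ x ∈ S, (if t ≤ F x then (1 : ℝ) else 0)) +
      (∫ t in (0 : ℝ)..1, ∑ y ∈ T, (if t ≤ G y then (1 : ℝ) else 0)) - 1 =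
      ∫ t in (0 : ℝ)..1, ((∑ x ∈ S, (if t ≤ F x then (1 : ℝ) else 0)) +
        (∑ y ∈ T, (if t ≤ G y then (1 : ℝ) else 0)) - 1) := by
    rw [intervalIntegral.integral_sub, intervalIntegral.integral_add]
    · simp
    · exact intervalIntegrable_count F S 0 1
    · exact intervalIntegrable_count G T 0 1
    · exact (intervalIntegrable_count F S 0 1).add (intervalIntegrable_count G T 0 1)
    · exact intervalIntegrable_const
  rw [hcomb]
  apply intervalIntegral.integral_mono_on_of_le_Ioo zero_le_one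
  · exact ((intervalIntegrable_count F S 0 1).add (intervalIntegrable_count G T 0 1)).sub
      intervalIntegrable_const
  · exact intervalIntegrable_count H U 0 1
  · intro t ht
    have hA : (S.filter (fun x => t ≤ F x)).Nonempty :=
      ⟨x0, Finset.mem_filter.mpr ⟨hx0S, by rw [hx0]; exact ht.2.le⟩⟩
    have hB : (T.filter (fun y => t ≤ G y)).Nonempty :=
      ⟨y0, Finset.mem_filter.mpr ⟨hy0T, by rw [hy0]; exact ht.2.le⟩⟩
    have hsub : S.filter (fun x => t ≤ F x) + T.filter (fun y => t ≤ G y) ⊆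
        U.filter (fun z => t ≤ H z) := by
      intro z hz
      rw [Finset.mem_add] at hz
      obtain ⟨x, hx, y, hy, rfl⟩ := hz
      rw [Finset.mem_filter] at hx hy ⊢
      have h1 : t ≤ H (x + y) := le_trans (le_min hx.2 hy.2) (hFGH x y)
      refine ⟨?_, h1⟩
      by_contra hnot
      have := hU _ hnot
      linarith [ht.1]
    have hcd := cauchy_davenport_add_of_linearOrder_isCancelAdd hA hB
    have hcard := Finset.card_le_card hsub
    have hApos : 1 ≤ (S.filter (fun x => t ≤ F x)).card := hA.card_pos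
    have h3 : (S.filter (fun x => t ≤ F x)).card + (T.filter (fun y => t ≤ G y)).card ≤
        (U.filter (fun z => t ≤ H z)).card + 1 := by omega
    have h4 : (((S.filter (fun x => t ≤ F x)).card + (T.filter (fun y => t ≤ G y)).card : ℕ) : ℝ)
        ≤ (((U.filter (fun z => t ≤ H z)).card + 1 : ℕ) : ℝ) := by exact_mod_cast h3
    push_cast at h4
    simp only [Finset.sum_boole]
    linarith

/-- `min u v ≤ sqrt (u * v)` for nonnegative reals. -/
theorem min_le_sqrt_mul (u v : ℝ) (hu : 0 ≤ u) (hv : 0 ≤ v) : min u v ≤ Real.sqrt (u * v) := by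
  apply Real.le_sqrt_of_sq_le
  rcases le_total u v with h | h
  · rw [min_eq_left h]
    nlinarith
  · rw [min_eq_right h]
    nlinarith

/-- `2 sqrt (u v) ≤ u + v` for nonnegative reals. -/
theorem two_sqrt_mul_le (u v : ℝ) (hu : 0 ≤ u) (hv : 0 ≤ v) : 2 * Real.sqrt (u * v) ≤ u + v := by
  rw [Real.sqrt_mul hu]
  nlinarith [sq_nonneg (Real.sqrt u - Real.sqrt v), Real.sq_sqrt hu, Real.sq_sqrt hv]

/-- **Discrete Prékopa–Leindler on the integers.** For finitely supported `F, G, H ≥ 0` with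
`F x * G y ≤ H (x + y) ^ 2` and `F x * G y ≤ m ^ 2` for all `x, y`:
`2 sqrt (∑ F * ∑ G) ≤ ∑ H + m`. -/
theorem disc_pl (F G H : ℤ → ℝ) (S T U : Finset ℤ)
    (hF0 : ∀ x, 0 ≤ F x) (hG0 : ∀ x, 0 ≤ G x) (hH0 : ∀ x, 0 ≤ H x)
    (hS : ∀ x, x ∉ S → F x = 0) (hT : ∀ x, x ∉ T → G x = 0) (hU : ∀ x, x ∉ U → H x = 0)
    (hFGH : ∀ x y, F x * G y ≤ H (x + y) ^ 2)
    (m : ℝ) (hm0 : 0 ≤ m) (hm : ∀ x y, F x * G y ≤ m ^ 2) :
    2 * Real.sqrt ((∑ x ∈ S, F x) * (∑ y ∈ T, G y)) ≤ ∑ z ∈ U, H z + m := by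
  classical
  have hHs : 0 ≤ ∑ z ∈ U, H z := Finset.sum_nonneg fun z _ => hH0 z
  by_cases hFz : ∑ x ∈ S, F x = 0
  · rw [hFz, zero_mul, Real.sqrt_zero]
    linarith
  by_cases hGz : ∑ y ∈ T, G y = 0
  · rw [hGz, mul_zero, Real.sqrt_zero]
    linarith
  have hSne : S.Nonempty := by
    by_contra h
    rw [Finset.not_nonempty_iff_eq_empty] at h
    rw [h] at hFz
    simp at hFz
  have hTne : T.Nonempty := by
    by_contra h
    rw [Finset.not_nonempty_iff_eq_empty] at h
    rw [h] at hGz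
    simp at hGz
  obtain ⟨x0, hx0S, hx0⟩ := S.exists_max_image F hSne
  obtain ⟨y0, hy0T, hy0⟩ := T.exists_max_image G hTne
  have hFx0 : 0 < F x0 := by
    rcases (hF0 x0).lt_or_eq with h | h
    · exact h
    · exfalso
      apply hFz
      apply Finset.sum_eq_zero
      intro x hx
      exact le_antisymm (h ▸ hx0 x hx) (hF0 x)
  have hGy0 : 0 < G y0 := by
    rcases (hG0 y0).lt_or_eq with h | h
    · exact h
    · exfalso
      apply hGz
      apply Finset.sum_eq_zero
      intro y hy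
      exact le_antisymm (h ▸ hy0 y hy) (hG0 y)
  have hFle : ∀ x, F x ≤ F x0 := by
    intro x
    by_cases hx : x ∈ S
    · exact hx0 x hx
    · rw [hS x hx]
      exact hFx0.le
  have hGle : ∀ y, G y ≤ G y0 := by
    intro y
    by_cases hy : y ∈ T
    · exact hy0 y hy
    · rw [hT y hy]
      exact hGy0.le
  have hab : 0 < F x0 * G y0 := mul_pos hFx0 hGy0
  have hrpos : 0 < Real.sqrt (F x0 * G y0) := Real.sqrt_pos.mpr hab
  have hrm : Real.sqrt (F x0 * G y0) ≤ m := by
    calc Real.sqrt (F x0 * G y0) ≤ Real.sqrt (m ^ 2) := Real.sqrt_le_sqrt (hm x0 y0)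
      _ = m := Real.sqrt_sq hm0
  have key := disc_pl_norm (fun x => F x / F x0) (fun y => G y / G y0)
    (fun z => H z / Real.sqrt (F x0 * G y0)) S T U
    (fun x => div_nonneg (hF0 x) hFx0.le) (fun y => div_nonneg (hG0 y) hGy0.le)
    (fun z => div_nonneg (hH0 z) hrpos.le)
    (fun x => (div_le_one hFx0).mpr (hFle x)) (fun y => (div_le_one hGy0).mpr (hGle y))
    (fun x hx => by simp [hS x hx]) (fun y hy => by simp [hT y hy]) (fun z hz => by simp [hU z hz])
    x0 y0 (div_self hFx0.ne') (div_self hGy0.ne')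
    (by
      intro x y
      have h1 := min_le_sqrt_mul (F x / F x0) (G y / G y0) (div_nonneg (hF0 x) hFx0.le)
        (div_nonneg (hG0 y) hGy0.le)
      have h2 : Real.sqrt (F x / F x0 * (G y / G y0)) =
          Real.sqrt (F x * G y) / Real.sqrt (F x0 * G y0) := by
        rw [← Real.sqrt_div (mul_nonneg (hF0 x) (hG0 y))]
        congr 1
        field_simp
      have h3 : Real.sqrt (F x * G y) ≤ H (x + y) := by
        calc Real.sqrt (F x * G y) ≤ Real.sqrt (H (x + y) ^ 2) := Real.sqrt_le_sqrt (hFGH x y)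
          _ = H (x + y) := Real.sqrt_sq (hH0 _)
      rw [h2] at h1
      exact le_trans h1 (div_le_div_of_nonneg_right h3 hrpos.le))
  simp only [← Finset.sum_div] at key
  have hA0 : 0 ≤ ∑ x ∈ S, F x := Finset.sum_nonneg fun x _ => hF0 x
  have hB0 : 0 ≤ ∑ y ∈ T, G y := Finset.sum_nonneg fun y _ => hG0 y
  have amgm := two_sqrt_mul_le ((∑ x ∈ S, F x) / F x0) ((∑ y ∈ T, G y) / G y0)
    (div_nonneg hA0 hFx0.le) (div_nonneg hB0 hGy0.le)
  have h2 : Real.sqrt ((∑ x ∈ S, F x) / F x0 * ((∑ y ∈ T, G y) / G y0)) =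
      Real.sqrt ((∑ x ∈ S, F x) * (∑ y ∈ T, G y)) / Real.sqrt (F x0 * G y0) := by
    rw [← Real.sqrt_div (mul_nonneg hA0 hB0)]
    congr 1
    field_simp
  rw [h2] at amgm
  have h5 : 2 * (Real.sqrt ((∑ x ∈ S, F x) * (∑ y ∈ T, G y)) / Real.sqrt (F x0 * G y0)) ≤
      (∑ z ∈ U, H z) / Real.sqrt (F x0 * G y0) + 1 := by linarith
  have h6 : 2 * (Real.sqrt ((∑ x ∈ S, F x) * (∑ y ∈ T, G y)) / Real.sqrt (F x0 * G y0)) =
      2 * Real.sqrt ((∑ x ∈ S, F x) * (∑ y ∈ T, G y)) / Real.sqrt (F x0 * G y0) := by ring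
  have h7 : (∑ z ∈ U, H z) / Real.sqrt (F x0 * G y0) + 1 =
      ((∑ z ∈ U, H z) + Real.sqrt (F x0 * G y0)) / Real.sqrt (F x0 * G y0) := by
    field_simp
  rw [h6, h7, div_le_div_iff_of_pos_right hrpos] at h5
  linarith

end Vale.Agent.Lib.P249.H52
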