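import Mathlib

/-!
# P249: from a weighted coordinate sample to a map between finite-dimensional `ℓ_p` spaces

If a weighted sub-family of coordinates reproduces all `p`-th powers of the distances of a finite
point set up to factors `lo` and `hi`, then the point set embeds into `ℓ_p^d` with distortion
`(hi / lo) ^ (1 / p)`.
-/

namespace Vale.Agent.Lib.P249

open Finset
open scoped ENNReal

/-- The exponent of `PiLp p` as a real number is at least one. -/
theorem glue_one_le_toReal (p : ℝ≥0∞) [Fact (1 ≤ p)] (hp : p ≠ ⊤) : 1 ≤ p.toReal := by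
  have h := ENNReal.toReal_mono hp (Fact.out : (1 : ℝ≥0∞) ≤ p)
  simpa using h

/-- The distance of `PiLp p` (finite `p`) over real coordinates, as a sum of powers. -/
theorem glue_dist_eq (p : ℝ≥0∞) [Fact (1 ≤ p)] (hp : p ≠ ⊤) {m : ℕ}
    (a b : PiLp p (fun _ : Fin m => ℝ)) :
    dist a b = (∑ k, |a k - b k| ^ p.toReal) ^ (1 / p.toReal) := by
  have hq : 0 < p.toReal := lt_of_lt_of_le one_pos (glue_one_le_toReal p hp)
  rw [PiLp.dist_eq_sum hq]
  simp only [Real.dist_eq]

/-- Weighted coordinate samples give maps into `ℓ_p^d`. -/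
theorem pilp_glue (p : ℝ≥0∞) [Fact (1 ≤ p)] (hp : p ≠ ⊤) {n m d : ℕ}
    (x : Fin n → PiLp p (fun _ : Fin m => ℝ)) (κ : Fin d → Fin m) (c : Fin d → ℝ)
    (hc : ∀ l, 0 ≤ c l) (lo hi : ℝ) (hlo : 0 < lo) (hhi : 0 ≤ hi)
    (h : ∀ i j,
      lo * ∑ k, |x i k - x j k| ^ p.toReal ≤
          ∑ l, |x i (κ l) - x j (κ l)| ^ p.toReal * c l ∧
        ∑ l, |x i (κ l) - x j (κ l)| ^ p.toReal * c l ≤
          hi * ∑ k, |x i k - x j k| ^ p.toReal) :
    ∃ y : Fin n → PiLp p (fun _ : Fin d => ℝ), ∀ i j,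
      dist (x i) (x j) ≤ dist (y i) (y j) ∧
        dist (y i) (y j) ≤ (hi / lo) ^ (1 / p.toReal) * dist (x i) (x j) := by
  have hq1 : 1 ≤ p.toReal := glue_one_le_toReal p hp
  have hq : 0 < p.toReal := lt_of_lt_of_le one_pos hq1
  have hq' : 0 ≤ 1 / p.toReal := by positivity
  refine ⟨fun i => WithLp.toLp p fun l => x i (κ l) * (c l / lo) ^ (1 / p.toReal), ?_⟩
  intro i j
  have hV0 : 0 ≤ ∑ k, |x i k - x j k| ^ p.toReal :=
    Finset.sum_nonneg fun k _ => Real.rpow_nonneg (abs_nonneg _) _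
  have hterm : ∀ l : Fin d,
      |x i (κ l) * (c l / lo) ^ (1 / p.toReal) - x j (κ l) * (c l / lo) ^ (1 / p.toReal)|
          ^ p.toReal = |x i (κ l) - x j (κ l)| ^ p.toReal * c l / lo := by
    intro l
    have hcl : 0 ≤ c l / lo := div_nonneg (hc l) hlo.le
    have ht : 0 ≤ (c l / lo) ^ (1 / p.toReal) := Real.rpow_nonneg hcl _
    rw [← sub_mul, abs_mul, abs_of_nonneg ht, Real.mul_rpow (abs_nonneg _) ht,
      ← Real.rpow_mul hcl, one_div_mul_cancel hq.ne', Real.rpow_one]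
    ring
  have hy : dist (WithLp.toLp p fun l => x i (κ l) * (c l / lo) ^ (1 / p.toReal))
      (WithLp.toLp p fun l => x j (κ l) * (c l / lo) ^ (1 / p.toReal)) =
      ((∑ l, |x i (κ l) - x j (κ l)| ^ p.toReal * c l) / lo) ^ (1 / p.toReal) := by
    rw [glue_dist_eq p hp]
    congr 1
    rw [Finset.sum_div]
    exact Finset.sum_congr rfl fun l _ => hterm l
  rw [hy, glue_dist_eq p hp (x i) (x j)]
  obtain ⟨h1, h2⟩ := h i j
  constructor
  · apply Real.rpow_le_rpow hV0 _ hq'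
    rw [le_div_iff₀ hlo]
    linarith
  · rw [← Real.mul_rpow (div_nonneg hhi hlo.le) hV0]
    apply Real.rpow_le_rpow (div_nonneg (le_trans (mul_nonneg hlo.le hV0) h1) hlo.le) _ hq'
    rw [div_le_iff₀ hlo]
    have : hi / lo * (∑ k, |x i k - x j k| ^ p.toReal) * lo =
        hi * ∑ k, |x i k - x j k| ^ p.toReal := by
      field_simp
    rw [this]
    exact h2

end Vale.Agent.Lib.P249
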