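import Vale.Agent.Lib.P249.helper52.Sampling
import Vale.Agent.Lib.P249.helper52.PiLpGlue

/-!
# P249: from coordinate sensitivities to a low-dimensional embedding

If every coordinate `k` carries at most the fraction `s k` of the `p`-th power of every distance
of a finite point set in `ℓ_p^m`, then about `(∑ k, s k) * log n / ε ^ 2` sampled and reweighted
coordinates give a map into `ℓ_p^d` with distortion `((1 + ε) / (1 - ε)) ^ (1 / p)`.
-/

namespace Vale.Agent.Lib.P249

open Finset
open scoped ENNReal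

theorem embed_of_sens (p : ℝ≥0∞) [Fact (1 ≤ p)] (hp : p ≠ ⊤) {n m : ℕ}
    (x : Fin n → PiLp p (fun _ : Fin m => ℝ)) (s : Fin m → ℝ) (hs0 : ∀ k, 0 ≤ s k)
    (hs : ∀ k i j, |x i k - x j k| ^ p.toReal ≤ s k * ∑ k', |x i k' - x j k'| ^ p.toReal)
    (ε : ℝ) (hε : 0 < ε) (hε1 : ε < 1) (d : ℕ)
    (hd : 8 * (∑ k, s k) * Real.log (2 * ((n : ℝ) * n) + 1) ≤ ε ^ 2 * d) :
    ∃ y : Fin n → PiLp p (fun _ : Fin d => ℝ), ∀ i j,
      dist (x i) (x j) ≤ dist (y i) (y j) ∧
        dist (y i) (y j) ≤ ((1 + ε) / (1 - ε)) ^ (1 / p.toReal) * dist (x i) (x j) := by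
  have hq1 := glue_one_le_toReal p hp
  have hq : 0 < p.toReal := by linarith
  rcases (Finset.sum_nonneg fun k _ => hs0 k : 0 ≤ ∑ k, s k).lt_or_eq with hS | hS
  · -- the main case: sample
    obtain ⟨κ, hκ⟩ := sampling (K := Fin m) (F := Fin n × Fin n)
      (fun k f => |x f.1 k - x f.2 k| ^ p.toReal) s
      (fun f => ∑ k, |x f.1 k - x f.2 k| ^ p.toReal) (∑ k, s k)
      (fun k f => Real.rpow_nonneg (abs_nonneg _) _) (fun f => rfl) hs0
      (fun k f => hs k f.1 f.2) rfl hS ε hε hε1.le d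
      (by simpa [Fintype.card_prod] using hd)
    refine pilp_glue p hp x κ (fun l => (∑ k, s k) / ((d : ℝ) * s (κ l))) ?_ (1 - ε) (1 + ε)
      (by linarith) (by linarith) ?_
    · intro l
      exact div_nonneg hS.le (mul_nonneg (Nat.cast_nonneg d) (hs0 _))
    · intro i j
      exact hκ (i, j)
  · -- the degenerate case: all points coincide
    have hsk : ∀ k, s k = 0 := fun k =>
      (Finset.sum_eq_zero_iff_of_nonneg fun k _ => hs0 k).mp hS.symm k (Finset.mem_univ k)
    have hx : ∀ i j, dist (x i) (x j) = 0 := by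
      intro i j
      rw [glue_dist_eq p hp]
      have h0 : ∀ k, |x i k - x j k| ^ p.toReal = 0 := by
        intro k
        have h1 := hs k i j
        rw [hsk k, zero_mul] at h1
        exact le_antisymm h1 (Real.rpow_nonneg (abs_nonneg _) _)
      simp only [h0, Finset.sum_const_zero]
      exact Real.zero_rpow (one_div_pos.mpr hq).ne'
    refine ⟨fun _ => 0, fun i j => ?_⟩
    rw [hx i j]
    simp

end Vale.Agent.Lib.P249
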