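import Vale.Agent.Lib.P249.helper52.Embed

/-!
# P249: the final arithmetic

From a bound `∑ k, s k ≤ B * n * (log n) ^ a` on the total sensitivity to an embedding into
dimension `C * n * (log n) ^ (a + 1)` with distortion `D`.
-/

namespace Vale.Agent.Lib.P249

open Finset
open scoped ENNReal

/-- The accuracy `ε = (D - 1) / (D + 1)` gives distortion at most `D` for every exponent
`q ≥ 1`. -/
theorem final_eps (q D : ℝ) (hq : 1 ≤ q) (hD : 1 < D) :
    0 < (D - 1) / (D + 1) ∧ (D - 1) / (D + 1) < 1 ∧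
      ((1 + (D - 1) / (D + 1)) / (1 - (D - 1) / (D + 1))) ^ (1 / q) ≤ D := by
  have h1 : 0 < D + 1 := by linarith
  have h2 : 0 < D - 1 := by linarith
  have e : (1 + (D - 1) / (D + 1)) / (1 - (D - 1) / (D + 1)) = D := by
    field_simp
    ring
  refine ⟨div_pos h2 h1, by rw [div_lt_one h1]; linarith, ?_⟩
  rw [e]
  calc D ^ (1 / q) ≤ D ^ (1 : ℝ) :=
        Real.rpow_le_rpow_of_exponent_le hD.le (by rw [div_le_one (by linarith)]; exact hq)
    _ = D := Real.rpow_one D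

/-- For `n ≥ 2`: `log (2 n ^ 2 + 1) ≤ 4 log n`. -/
theorem final_log_pairs (n : ℕ) (hn : 2 ≤ n) :
    Real.log (2 * ((n : ℝ) * n) + 1) ≤ 4 * Real.log n := by
  have hn' : (2 : ℝ) ≤ n := by exact_mod_cast hn
  have h1 : 2 * ((n : ℝ) * n) + 1 ≤ (n : ℝ) ^ 4 := by
    nlinarith [mul_self_nonneg ((n : ℝ) * n - 2), mul_nonneg (by linarith : (0 : ℝ) ≤ n) (by linarith : (0 : ℝ) ≤ n)]
  calc Real.log (2 * ((n : ℝ) * n) + 1) ≤ Real.log ((n : ℝ) ^ 4) :=
        Real.log_le_log (by positivity) h1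
    _ = 4 * Real.log n := by
        rw [Real.log_pow]
        norm_num

/-- From a bound on the total sensitivity to the dimension bound. -/
theorem near_linear_of_sens (p : ℝ≥0∞) [Fact (1 ≤ p)] (hp : p ≠ ⊤) (D : ℝ) (hD : 1 < D)
    (B a : ℝ) (hB : 0 ≤ B) (ha : 0 ≤ a)
    (hA : ∀ (n m : ℕ), 2 ≤ n → ∀ x : Fin n → PiLp p (fun _ : Fin m => ℝ),
      ∃ s : Fin m → ℝ, (∀ k, 0 ≤ s k) ∧
        (∀ k i j, |x i k - x j k| ^ p.toReal ≤ s k * ∑ k', |x i k' - x j k'| ^ p.toReal) ∧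
        ∑ k, s k ≤ B * n * Real.log n ^ a) :
    ∃ C : ℝ, ∀ (n m : ℕ), 2 ≤ n → ∀ x : Fin n → PiLp p (fun _ : Fin m => ℝ),
      ∃ (d : ℕ) (y : Fin n → PiLp p (fun _ : Fin d => ℝ)),
        (d : ℝ) ≤ C * n * Real.log n ^ (a + 1) ∧
          ∀ i j, dist (x i) (x j) ≤ dist (y i) (y j) ∧
            dist (y i) (y j) ≤ D * dist (x i) (x j) := by
  have hq1 := glue_one_le_toReal p hp
  obtain ⟨hε, hε1, hεD⟩ := final_eps p.toReal D hq1 hD
  set ε : ℝ := (D - 1) / (D + 1) with hεdef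
  have hlog2 : 0 < Real.log 2 := Real.log_pos (by norm_num)
  refine ⟨32 * B / ε ^ 2 + 1 / Real.log 2 ^ (a + 1), ?_⟩
  intro n m hn x
  obtain ⟨s, hs0, hs, hS⟩ := hA n m hn x
  have hn' : (2 : ℝ) ≤ n := by exact_mod_cast hn
  have hlogn : Real.log 2 ≤ Real.log n := Real.log_le_log (by norm_num) hn'
  have hlogpos : 0 < Real.log n := lt_of_lt_of_le hlog2 hlogn
  have hS0 : 0 ≤ ∑ k, s k := Finset.sum_nonneg fun k _ => hs0 k
  have hL := final_log_pairs n hn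
  have hL0 : 0 ≤ Real.log (2 * ((n : ℝ) * n) + 1) := Real.log_nonneg (by nlinarith)
  set T : ℝ := 8 * (∑ k, s k) * Real.log (2 * ((n : ℝ) * n) + 1) / ε ^ 2 with hT
  have hT0 : 0 ≤ T := by positivity
  have hd : 8 * (∑ k, s k) * Real.log (2 * ((n : ℝ) * n) + 1) ≤ ε ^ 2 * (⌈T⌉₊ : ℝ) := by
    have h1 : T ≤ (⌈T⌉₊ : ℝ) := Nat.le_ceil T
    have h2 : 8 * (∑ k, s k) * Real.log (2 * ((n : ℝ) * n) + 1) = ε ^ 2 * T := by
      rw [hT]
      field_simp
    rw [h2]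
    exact mul_le_mul_of_nonneg_left h1 (by positivity)
  obtain ⟨y, hy⟩ := embed_of_sens p hp x s hs0 hs ε hε hε1 ⌈T⌉₊ hd
  refine ⟨⌈T⌉₊, y, ?_, fun i j => ⟨(hy i j).1, le_trans (hy i j).2 ?_⟩⟩
  · -- the dimension bound
    have hpow : Real.log n ^ (a + 1) = Real.log n ^ a * Real.log n :=
      Real.rpow_add_one hlogpos.ne' a
    have hpa : 0 ≤ Real.log n ^ a := Real.rpow_nonneg hlogpos.le a
    have hc1 : (⌈T⌉₊ : ℝ) < T + 1 := Nat.ceil_lt_add_one hT0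
    have hT2 : T ≤ 32 * B / ε ^ 2 * (n * Real.log n ^ (a + 1)) := by
      have h3 : 8 * (∑ k, s k) * Real.log (2 * ((n : ℝ) * n) + 1) ≤
          8 * (B * n * Real.log n ^ a) * (4 * Real.log n) := by
        apply mul_le_mul (by linarith) hL hL0
        positivity
      rw [hT, div_le_iff₀ (by positivity)]
      have h4 : 32 * B / ε ^ 2 * (n * Real.log n ^ (a + 1)) * ε ^ 2 =
          8 * (B * n * Real.log n ^ a) * (4 * Real.log n) := by
        rw [hpow]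
        field_simp
        ring
      rw [h4]
      exact h3
    have hone : 1 ≤ 1 / Real.log 2 ^ (a + 1) * (n * Real.log n ^ (a + 1)) := by
      have h5 : Real.log 2 ^ (a + 1) ≤ Real.log n ^ (a + 1) :=
        Real.rpow_le_rpow hlog2.le hlogn (by linarith)
      have h6 : 0 < Real.log 2 ^ (a + 1) := Real.rpow_pos_of_pos hlog2 _
      rw [one_div, inv_mul_eq_div, le_div_iff₀ h6]
      nlinarith
    calc (⌈T⌉₊ : ℝ) ≤ T + 1 := hc1.le
      _ ≤ 32 * B / ε ^ 2 * (n * Real.log n ^ (a + 1)) +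
            1 / Real.log 2 ^ (a + 1) * (n * Real.log n ^ (a + 1)) := add_le_add hT2 hone
      _ = (32 * B / ε ^ 2 + 1 / Real.log 2 ^ (a + 1)) * n * Real.log n ^ (a + 1) := by ring
  · exact mul_le_mul_of_nonneg_right hεD dist_nonneg

end Vale.Agent.Lib.P249
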