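import Vale.Agent.Lib.P249.helper52.Final

/-!
# P249: the final arithmetic with explicit dependence on the accuracy

From a bound `∑ k, s k ≤ B * n * (log n) ^ a` on the total sensitivity to an embedding into
dimension `C * ε⁻² * n * (log n) ^ (a + 1)` with distortion `1 + ε`, the constant `C` not
depending on `ε`.
-/

namespace Vale.Agent.Lib.P249

open Finset
open scoped ENNReal

/-- The accuracy `ε / 3` gives distortion at most `1 + ε` for every exponent `q ≥ 1`. -/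
theorem final_eps_third (q ε : ℝ) (hq : 1 ≤ q) (hε : 0 < ε) (hε1 : ε ≤ 1) :
    ((1 + ε / 3) / (1 - ε / 3)) ^ (1 / q) ≤ 1 + ε := by
  have h3 : 0 < 1 - ε / 3 := by linarith
  have hbase : 1 ≤ (1 + ε / 3) / (1 - ε / 3) := by
    rw [le_div_iff₀ h3]
    linarith
  have hle : (1 + ε / 3) / (1 - ε / 3) ≤ 1 + ε := by
    rw [div_le_iff₀ h3]
    nlinarith
  calc ((1 + ε / 3) / (1 - ε / 3)) ^ (1 / q)
      ≤ ((1 + ε / 3) / (1 - ε / 3)) ^ (1 : ℝ) :=
        Real.rpow_le_rpow_of_exponent_le hbase (by rw [div_le_one (by linarith)]; exact hq)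
    _ = (1 + ε / 3) / (1 - ε / 3) := Real.rpow_one _
    _ ≤ 1 + ε := hle

/-- From a bound on the total sensitivity to the dimension bound, uniformly in the accuracy. -/
theorem near_linear_eps_of_sens (p : ℝ≥0∞) [Fact (1 ≤ p)] (hp : p ≠ ⊤)
    (B a : ℝ) (hB : 0 ≤ B) (ha : 0 ≤ a)
    (hA : ∀ (n m : ℕ), 2 ≤ n → ∀ x : Fin n → PiLp p (fun _ : Fin m => ℝ),
      ∃ s : Fin m → ℝ, (∀ k, 0 ≤ s k) ∧
        (∀ k i j, |x i k - x j k| ^ p.toReal ≤ s k * ∑ k', |x i k' - x j k'| ^ p.toReal) ∧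
        ∑ k, s k ≤ B * n * Real.log n ^ a) :
    ∃ C : ℝ, ∀ ε : ℝ, 0 < ε → ε ≤ 1 →
      ∀ (n m : ℕ), 2 ≤ n → ∀ x : Fin n → PiLp p (fun _ : Fin m => ℝ),
      ∃ (d : ℕ) (y : Fin n → PiLp p (fun _ : Fin d => ℝ)),
        (d : ℝ) ≤ C / ε ^ 2 * n * Real.log n ^ (a + 1) ∧
          ∀ i j, dist (x i) (x j) ≤ dist (y i) (y j) ∧
            dist (y i) (y j) ≤ (1 + ε) * dist (x i) (x j) := by
  have hq1 := glue_one_le_toReal p hp
  have hlog2 : 0 < Real.log 2 := Real.log_pos (by norm_num)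
  refine ⟨288 * B + 1 / Real.log 2 ^ (a + 1), ?_⟩
  intro ε hε hε1 n m hn x
  have hεD := final_eps_third p.toReal ε hq1 hε hε1
  set δ : ℝ := ε / 3 with hδdef
  have hδ : 0 < δ := by positivity
  have hδ1 : δ < 1 := by simp only [hδdef]; linarith
  obtain ⟨s, hs0, hs, hS⟩ := hA n m hn x
  have hn' : (2 : ℝ) ≤ n := by exact_mod_cast hn
  have hlogn : Real.log 2 ≤ Real.log n := Real.log_le_log (by norm_num) hn'
  have hlogpos : 0 < Real.log n := lt_of_lt_of_le hlog2 hlogn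
  have hS0 : 0 ≤ ∑ k, s k := Finset.sum_nonneg fun k _ => hs0 k
  have hL := final_log_pairs n hn
  have hL0 : 0 ≤ Real.log (2 * ((n : ℝ) * n) + 1) := Real.log_nonneg (by nlinarith)
  set T : ℝ := 8 * (∑ k, s k) * Real.log (2 * ((n : ℝ) * n) + 1) / δ ^ 2 with hT
  have hT0 : 0 ≤ T := by positivity
  have hd : 8 * (∑ k, s k) * Real.log (2 * ((n : ℝ) * n) + 1) ≤ δ ^ 2 * (⌈T⌉₊ : ℝ) := by
    have h1 : T ≤ (⌈T⌉₊ : ℝ) := Nat.le_ceil T
    have h2 : 8 * (∑ k, s k) * Real.log (2 * ((n : ℝ) * n) + 1) = δ ^ 2 * T := by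
      rw [hT]
      field_simp
    rw [h2]
    exact mul_le_mul_of_nonneg_left h1 (by positivity)
  obtain ⟨y, hy⟩ := embed_of_sens p hp x s hs0 hs δ hδ hδ1 ⌈T⌉₊ hd
  refine ⟨⌈T⌉₊, y, ?_, fun i j => ⟨(hy i j).1, le_trans (hy i j).2 ?_⟩⟩
  · -- the dimension bound
    have hpow : Real.log n ^ (a + 1) = Real.log n ^ a * Real.log n :=
      Real.rpow_add_one hlogpos.ne' a
    have hpa : 0 ≤ Real.log n ^ a := Real.rpow_nonneg hlogpos.le a
    have hpa1 : 0 ≤ Real.log n ^ (a + 1) := Real.rpow_nonneg hlogpos.le _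
    have hc1 : (⌈T⌉₊ : ℝ) < T + 1 := Nat.ceil_lt_add_one hT0
    have hT2 : T ≤ 288 * B / ε ^ 2 * (n * Real.log n ^ (a + 1)) := by
      have h3 : 8 * (∑ k, s k) * Real.log (2 * ((n : ℝ) * n) + 1) ≤
          8 * (B * n * Real.log n ^ a) * (4 * Real.log n) := by
        apply mul_le_mul (by linarith) hL hL0
        positivity
      rw [hT, div_le_iff₀ (by positivity)]
      have h4 : 288 * B / ε ^ 2 * (n * Real.log n ^ (a + 1)) * δ ^ 2 =
          8 * (B * n * Real.log n ^ a) * (4 * Real.log n) := by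
        rw [hpow, hδdef]
        field_simp
        ring
      rw [h4]
      exact h3
    have hone : 1 ≤ 1 / Real.log 2 ^ (a + 1) / ε ^ 2 * (n * Real.log n ^ (a + 1)) := by
      have h5 : Real.log 2 ^ (a + 1) ≤ Real.log n ^ (a + 1) :=
        Real.rpow_le_rpow hlog2.le hlogn (by linarith)
      have h6 : 0 < Real.log 2 ^ (a + 1) := Real.rpow_pos_of_pos hlog2 _
      have h7 : ε ^ 2 ≤ 1 := by nlinarith
      have h8 : 0 < ε ^ 2 := by positivity
      rw [div_div, one_div, inv_mul_eq_div, le_div_iff₀ (by positivity)]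
      have h9 : Real.log 2 ^ (a + 1) * ε ^ 2 ≤ Real.log n ^ (a + 1) * 1 :=
        mul_le_mul h5 h7 h8.le hpa1
      nlinarith
    calc (⌈T⌉₊ : ℝ) ≤ T + 1 := hc1.le
      _ ≤ 288 * B / ε ^ 2 * (n * Real.log n ^ (a + 1)) +
            1 / Real.log 2 ^ (a + 1) / ε ^ 2 * (n * Real.log n ^ (a + 1)) :=
          add_le_add hT2 hone
      _ = (288 * B + 1 / Real.log 2 ^ (a + 1)) / ε ^ 2 * n * Real.log n ^ (a + 1) := by ring
  · exact mul_le_mul_of_nonneg_right hεD dist_nonneg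

end Vale.Agent.Lib.P249
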