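import Vale.Agent.Lib.P249.helper69.GridLower

/-!
# The grid lower bound for every number of points (P249)

`extend_points`: a finite family of distinct points of `ℓ_p^m` can be enlarged to any larger
number of distinct points of `ℓ_p^(m+1)` without changing the distances of the old points.

`grid_lower_mono`: the grid lower bound for every `n ≥ (6k+1)^k`.

`grid_lower_log`: the grid lower bound in terms of `log n / log log n`, for every `n ≥ 7`.
-/

namespace Vale.Agent.Lib.P249.H52

/-- Appending a common last coordinate does not change the `ℓ_p` distance. -/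
theorem dist_snoc (p : ENNReal) [Fact (1 ≤ p)] (hp : p ≠ ⊤) (m : ℕ) (u v : Fin m → ℝ) (c : ℝ) :
    dist (WithLp.toLp p (Fin.snoc (α := fun _ => ℝ) u c) : PiLp p (fun _ : Fin (m + 1) => ℝ))
      (WithLp.toLp p (Fin.snoc (α := fun _ => ℝ) v c)) =
    dist (WithLp.toLp p u : PiLp p (fun _ : Fin m => ℝ)) (WithLp.toLp p v) := by
  have hp1 : (1 : ENNReal) ≤ p := Fact.out
  have hp0 : p ≠ 0 := (lt_of_lt_of_le zero_lt_one hp1).ne'
  have hq : 0 < p.toReal := ENNReal.toReal_pos hp0 hp
  rw [PiLp.dist_eq_sum hq, PiLp.dist_eq_sum hq, Fin.sum_univ_castSucc]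
  simp [Real.zero_rpow hq.ne']

/-- A finite family of distinct points of `ℓ_p^m` extends to any larger number of distinct
points of `ℓ_p^(m+1)`, the old points keeping their mutual distances. -/
theorem extend_points (p : ENNReal) [Fact (1 ≤ p)] (hp : p ≠ ⊤) (N n : ℕ) (hNn : N ≤ n) (m : ℕ)
    (x : Fin N → PiLp p (fun _ : Fin m => ℝ)) (hx : Function.Injective x) :
    ∃ x' : Fin n → PiLp p (fun _ : Fin (m + 1) => ℝ), Function.Injective x' ∧
      ∀ i j : Fin N, dist (x' (Fin.castLE hNn i)) (x' (Fin.castLE hNn j)) = dist (x i) (x j) := by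
  classical
  let u : Fin n → Fin m → ℝ := fun i =>
    if h : (i : ℕ) < N then (fun j => x ⟨i, h⟩ j) else fun _ => 0
  let c : Fin n → ℝ := fun i => if (i : ℕ) < N then 0 else ((i : ℕ) : ℝ) + 1
  refine ⟨fun i => WithLp.toLp p (Fin.snoc (α := fun _ => ℝ) (u i) (c i)), ?_, ?_⟩
  · intro i j hij
    have hcoord : ∀ l : Fin (m + 1),
        (Fin.snoc (α := fun _ => ℝ) (u i) (c i) : Fin (m + 1) → ℝ) l =
          Fin.snoc (α := fun _ => ℝ) (u j) (c j) l := by
      intro l
      have := congrArg (fun z : PiLp p (fun _ : Fin (m + 1) => ℝ) => z l) hij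
      simpa using this
    have hlast : c i = c j := by
      have := hcoord (Fin.last m)
      simpa using this
    have hfirst : ∀ l : Fin m, u i l = u j l := by
      intro l
      have := hcoord (Fin.castSucc l)
      simpa using this
    by_cases hi : (i : ℕ) < N
    · by_cases hj : (j : ℕ) < N
      · have hxx : x ⟨i, hi⟩ = x ⟨j, hj⟩ := by
          ext l
          have := hfirst l
          simpa [u, hi, hj] using this
        have h2 := hx hxx
        apply Fin.ext
        simpa using congrArg Fin.val h2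
      · exfalso
        simp only [c, hi, hj, if_true, if_false] at hlast
        have : (0 : ℝ) ≤ ((j : ℕ) : ℝ) := Nat.cast_nonneg _
        linarith
    · by_cases hj : (j : ℕ) < N
      · exfalso
        simp only [c, hi, hj, if_true, if_false] at hlast
        have : (0 : ℝ) ≤ ((i : ℕ) : ℝ) := Nat.cast_nonneg _
        linarith
      · simp only [c, hi, hj, if_false] at hlast
        apply Fin.ext
        have : ((i : ℕ) : ℝ) = ((j : ℕ) : ℝ) := by linarith
        exact_mod_cast this
  · intro i j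
    have hi : ((Fin.castLE hNn i : Fin n) : ℕ) < N := by simp
    have hj : ((Fin.castLE hNn j : Fin n) : ℕ) < N := by simp
    have hui : u (Fin.castLE hNn i) = fun l => x i l := by
      simp only [u, hi, dite_true]
      rfl
    have huj : u (Fin.castLE hNn j) = fun l => x j l := by
      simp only [u, hj, dite_true]
      rfl
    have hci : c (Fin.castLE hNn i) = 0 := by simp only [c, hi, if_true]
    have hcj : c (Fin.castLE hNn j) = 0 := by simp only [c, hj, if_true]
    show dist (WithLp.toLp p (Fin.snoc (α := fun _ => ℝ) (u (Fin.castLE hNn i))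
        (c (Fin.castLE hNn i))) : PiLp p (fun _ : Fin (m + 1) => ℝ))
      (WithLp.toLp p (Fin.snoc (α := fun _ => ℝ) (u (Fin.castLE hNn j))
        (c (Fin.castLE hNn j)))) = dist (x i) (x j)
    rw [hui, huj, hci, hcj, dist_snoc p hp]

/-- **The grid lower bound for every `n ≥ (6k+1)^k`.** -/
theorem grid_lower_mono (p : ENNReal) [Fact (1 ≤ p)] (hp : p ≠ ⊤) (hp2 : 2 ≤ p) (k : ℕ)
    (hk : 1 ≤ k) (n : ℕ) (hn : (6 * k + 1) ^ k ≤ n) :
    ∃ (m : ℕ) (x : Fin n → PiLp p (fun _ : Fin m => ℝ)), Function.Injective x ∧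
      ∀ (d : ℕ) (y : Fin n → PiLp p (fun _ : Fin d => ℝ)) (s D : ℝ), 0 < s →
        (∀ i j, s * dist (x i) (x j) ≤ dist (y i) (y j) ∧
          dist (y i) (y j) ≤ D * s * dist (x i) (x j)) →
        (1 / 11 : ℝ) * (2 * k / (3 * p.toReal ^ 2)) ^ (p.toReal / 2) ≤ D ^ p.toReal * d := by
  obtain ⟨m, x, hx, hgrid⟩ := Vale.Agent.Lib.P249.H69g.grid_final p hp hp2 k hk
  obtain ⟨x', hx', hdist⟩ := extend_points p hp ((6 * k + 1) ^ k) n hn m x hx
  refine ⟨m + 1, x', hx', ?_⟩
  intro d y s D hs hy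
  refine hgrid d (fun i => y (Fin.castLE hn i)) s D hs ?_
  intro i j
  have h := hy (Fin.castLE hn i) (Fin.castLE hn j)
  rw [hdist i j] at h
  exact h

/-- `log 7 ≥ 1.9`. -/
theorem log_seven_ge : (1.9 : ℝ) ≤ Real.log 7 := by
  rw [Real.le_log_iff_exp_le (by norm_num)]
  have e1 : Real.exp 1 < 2.7182818286 := Real.exp_one_lt_d9
  have e1pos : 0 < Real.exp 1 := Real.exp_pos 1
  have e01 : (1.1 : ℝ) ≤ Real.exp 0.1 := by
    have := Real.add_one_le_exp (0.1 : ℝ)
    linarith
  have hprod : Real.exp 1.9 * Real.exp 0.1 = Real.exp 1 * Real.exp 1 := by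
    rw [← Real.exp_add, ← Real.exp_add]
    norm_num
  have h19 : 0 < Real.exp 1.9 := Real.exp_pos _
  nlinarith

/-- For `n ≥ 7` the largest `k` with `(6k+1)^k ≤ n` satisfies `log n ≤ 16 k log log n`. -/
theorem exists_k_log (n : ℕ) (hn : 7 ≤ n) :
    ∃ k : ℕ, 1 ≤ k ∧ (6 * k + 1) ^ k ≤ n ∧ 1 < Real.log n ∧
      Real.log n ≤ 16 * k * Real.log (Real.log n) := by
  classical
  have hP1 : (6 * 1 + 1) ^ 1 ≤ n := by omega
  have hk1 : 1 ≤ Nat.findGreatest (fun k => (6 * k + 1) ^ k ≤ n) n :=
    Nat.le_findGreatest (by omega) hP1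
  have hPk : (6 * Nat.findGreatest (fun k => (6 * k + 1) ^ k ≤ n) n + 1) ^
      Nat.findGreatest (fun k => (6 * k + 1) ^ k ≤ n) n ≤ n :=
    Nat.findGreatest_spec (P := fun k => (6 * k + 1) ^ k ≤ n) (m := 1) (by omega) hP1
  generalize hkdef : Nat.findGreatest (fun k => (6 * k + 1) ^ k ≤ n) n = k at hk1 hPk
  have hkn : k < n := by
    by_contra hge'
    have hge : n ≤ k := not_lt.mp hge'
    have h1 : k < (6 * k + 1) ^ k := by
      calc k < 2 ^ k := Nat.lt_two_pow_self
        _ ≤ (6 * k + 1) ^ k := Nat.pow_le_pow_left (by omega) k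
    omega
  have hnot : ¬ (6 * (k + 1) + 1) ^ (k + 1) ≤ n := by
    have := Nat.findGreatest_is_greatest (P := fun k => (6 * k + 1) ^ k ≤ n) (n := n)
      (k := k + 1) (by rw [hkdef]; exact Nat.lt_succ_self k) (by omega)
    exact this
  have hlt : n < (6 * (k + 1) + 1) ^ (k + 1) := not_le.mp hnot
  have hn0 : (0 : ℝ) < n := by
    have : 0 < n := by omega
    exact_mod_cast this
  have hkR : (1 : ℝ) ≤ k := by exact_mod_cast hk1
  have hi : 1.9 * (k : ℝ) ≤ Real.log n := by
    have h7k : (7 : ℝ) ^ k ≤ n := by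
      have : 7 ^ k ≤ n := le_trans (Nat.pow_le_pow_left (by omega) k) hPk
      exact_mod_cast this
    have h := Real.log_le_log (by positivity) h7k
    rw [Real.log_pow] at h
    have h19 := log_seven_ge
    nlinarith
  have ha1 : 1 < Real.log n := by linarith
  have hii : Real.log n ≤ 2 * k * Real.log (13 * k) := by
    have h1 : (n : ℝ) ≤ (13 * (k : ℝ)) ^ (k + 1) := by
      have h2 : (n : ℝ) < ((6 * (k + 1) + 1 : ℕ) : ℝ) ^ (k + 1) := by exact_mod_cast hlt
      refine le_trans h2.le ?_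
      apply pow_le_pow_left₀ (by positivity)
      push_cast
      linarith
    have h := Real.log_le_log hn0 h1
    rw [Real.log_pow] at h
    have hl : 0 ≤ Real.log (13 * k) := Real.log_nonneg (by linarith)
    push_cast at h
    nlinarith
  have hiii : Real.log (13 * k) ≤ 8 * Real.log (Real.log n) := by
    have h13 : 13 * (k : ℝ) ≤ Real.log n ^ 8 := by
      have hk8 : (k : ℝ) ≤ (k : ℝ) ^ 8 := by
        calc (k : ℝ) = (k : ℝ) ^ 1 := (pow_one _).symm
          _ ≤ (k : ℝ) ^ 8 := pow_le_pow_right₀ hkR (by norm_num)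
      calc 13 * (k : ℝ) ≤ (1.9 * (k : ℝ)) ^ 8 := by
            rw [mul_pow]
            norm_num
            nlinarith
        _ ≤ Real.log n ^ 8 := pow_le_pow_left₀ (by positivity) hi 8
    have h := Real.log_le_log (by positivity) h13
    rw [Real.log_pow] at h
    push_cast at h
    linarith
  refine ⟨k, hk1, hPk, ha1, ?_⟩
  calc Real.log n ≤ 2 * k * Real.log (13 * k) := hii
    _ ≤ 2 * k * (8 * Real.log (Real.log n)) := by
        apply mul_le_mul_of_nonneg_left hiii (by positivity)
    _ = 16 * k * Real.log (Real.log n) := by ring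

/-- **The grid lower bound in terms of `log n / log log n`, for every `n ≥ 7`.** -/
theorem grid_lower_log (p : ENNReal) [Fact (1 ≤ p)] (hp : p ≠ ⊤) (hp2 : 2 ≤ p) (n : ℕ)
    (hn : 7 ≤ n) :
    ∃ (m : ℕ) (x : Fin n → PiLp p (fun _ : Fin m => ℝ)), Function.Injective x ∧
      ∀ (d : ℕ) (y : Fin n → PiLp p (fun _ : Fin d => ℝ)) (s D : ℝ), 0 < s →
        (∀ i j, s * dist (x i) (x j) ≤ dist (y i) (y j) ∧
          dist (y i) (y j) ≤ D * s * dist (x i) (x j)) →
        (1 / 11 : ℝ) *
            (Real.log n / (24 * p.toReal ^ 2 * Real.log (Real.log n))) ^ (p.toReal / 2)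
          ≤ D ^ p.toReal * d := by
  obtain ⟨k, hk1, hkn, ha1, hlog⟩ := exists_k_log n hn
  obtain ⟨m, x, hx, hgrid⟩ := grid_lower_mono p hp hp2 k hk1 n hkn
  refine ⟨m, x, hx, ?_⟩
  intro d y s D hs hy
  refine le_trans ?_ (hgrid d y s D hs hy)
  have hq : 2 ≤ p.toReal := by
    have := ENNReal.toReal_mono hp hp2
    simpa using this
  have hll : 0 < Real.log (Real.log n) := Real.log_pos ha1
  have hl : 0 < Real.log n := by linarith
  have hq2 : 0 < p.toReal ^ 2 := by positivity
  apply mul_le_mul_of_nonneg_left _ (by norm_num)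
  apply Real.rpow_le_rpow (by positivity) _ (by positivity)
  rw [div_le_div_iff₀ (by positivity) (by positivity)]
  have h3 := mul_le_mul_of_nonneg_right hlog (by positivity : (0 : ℝ) ≤ 3 * p.toReal ^ 2)
  calc Real.log n * (3 * p.toReal ^ 2) ≤ 16 * k * Real.log (Real.log n) * (3 * p.toReal ^ 2) := h3
    _ = 2 * k * (24 * p.toReal ^ 2 * Real.log (Real.log n)) := by ring

end Vale.Agent.Lib.P249.H52
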