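import Mathlib

/-!
# Finitely many points of `L_p(μ)` are almost isometric to points of `ℓ_p^m`

`lp_approx`: for every measure space, `1 ≤ p < ∞`, `η > 0` and `f : Fin n → Lp ℝ p μ` there are
`m` and `x : Fin n → PiLp p (Fin m → ℝ)` with
`(1 - η) * dist (f i) (f j) ≤ dist (x i) (x j) ≤ (1 + η) * dist (f i) (f j)`.

Route: simple functions are dense in `L_p`; finitely many simple functions in `L_p` are
*isometric* to points of `ℓ_p^m` (the cells of the joint simple function are the coordinates).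
-/

open MeasureTheory

namespace Vale.Agent.Lib.P249.H52

universe u

variable {α : Type u} [MeasurableSpace α]

/-- The joint simple function `a ↦ (i ↦ u i a)` of finitely many simple functions. -/
noncomputable def joint {n : ℕ} (u : Fin n → SimpleFunc α ℝ) : SimpleFunc α (Fin n → ℝ) where
  toFun a i := u i a
  measurableSet_fiber' v := by
    have h : (fun a i => u i a) ⁻¹' {v} = ⋂ i, (u i) ⁻¹' {v i} := by
      ext a
      simp only [Set.mem_preimage, Set.mem_singleton_iff, Set.mem_iInter]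
      exact funext_iff
    rw [h]
    exact MeasurableSet.iInter fun i => (u i).measurableSet_fiber (v i)
  finite_range' := by
    refine (Set.Finite.pi (fun i => (u i).finite_range)).subset ?_
    rintro _ ⟨a, rfl⟩
    simp

theorem joint_apply {n : ℕ} (u : Fin n → SimpleFunc α ℝ) (a : α) (i : Fin n) :
    joint u a i = u i a := rfl

/-- The `L_p` seminorm of the difference of two members of a finite family of simple functions,
as a finite sum over the range of the joint simple function. -/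
theorem eLpNorm_sub_eq_sum (μ : Measure α) (p : ENNReal) (hp0 : p ≠ 0) (hp : p ≠ ⊤)
    {n : ℕ} (u : Fin n → SimpleFunc α ℝ) (i j : Fin n) :
    eLpNorm (⇑(u i) - ⇑(u j)) p μ =
      (∑ v ∈ (joint u).range, ‖v i - v j‖ₑ ^ p.toReal * μ ((joint u) ⁻¹' {v})) ^ (1 / p.toReal) := by
  rw [eLpNorm_eq_lintegral_rpow_enorm_toReal hp0 hp]
  congr 1
  rw [← SimpleFunc.map_lintegral (fun v : Fin n → ℝ => ‖v i - v j‖ₑ ^ p.toReal) (joint u),
    ← SimpleFunc.lintegral_eq_lintegral]
  rfl

/-- One coordinate of the embedding: `|a c^(1/q) - b c^(1/q)|^q = |a - b|^q c`. -/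
theorem coord_rpow (a b c q : ℝ) (hc : 0 ≤ c) (hq : 0 < q) :
    dist (a * c ^ (1 / q)) (b * c ^ (1 / q)) ^ q = |a - b| ^ q * c := by
  rw [Real.dist_eq, ← sub_mul, abs_mul, abs_of_nonneg (Real.rpow_nonneg hc _),
    Real.mul_rpow (abs_nonneg _) (Real.rpow_nonneg hc _), ← Real.rpow_mul hc,
    one_div, inv_mul_cancel₀ hq.ne', Real.rpow_one]

/-- Finitely many simple functions in `ℒ_p(μ)` are isometric to points of `ℓ_p^m`. -/
theorem simple_isometric (μ : Measure α) (p : ENNReal) [Fact (1 ≤ p)] (hp : p ≠ ⊤)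
    {n : ℕ} (u : Fin n → SimpleFunc α ℝ) (hu : ∀ i, MemLp (u i) p μ) :
    ∃ (m : ℕ) (x : Fin n → PiLp p (fun _ : Fin m => ℝ)),
      ∀ i j, dist (x i) (x j) = (eLpNorm (⇑(u i) - ⇑(u j)) p μ).toReal := by
  classical
  have hp1 : (1 : ENNReal) ≤ p := Fact.out
  have hp0 : p ≠ 0 := (lt_of_lt_of_le zero_lt_one hp1).ne'
  have hq : 0 < p.toReal := ENNReal.toReal_pos hp0 hp
  let e : Fin (joint u).range.card ≃ (joint u).range := (joint u).range.equivFin.symm
  refine ⟨(joint u).range.card, fun i => WithLp.toLp p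
    (fun k => (e k).1 i * ((μ ((joint u) ⁻¹' {(e k).1})).toReal) ^ (1 / p.toReal)), ?_⟩
  intro i j
  have hfin : ∀ v ∈ (joint u).range,
      ‖v i - v j‖ₑ ^ p.toReal * μ ((joint u) ⁻¹' {v}) ≠ ⊤ := by
    have hmem : MemLp (⇑(u i) - ⇑(u j)) p μ := (hu i).sub (hu j)
    have hlt := hmem.eLpNorm_lt_top
    rw [eLpNorm_sub_eq_sum μ p hp0 hp u i j] at hlt
    have hsum : (∑ v ∈ (joint u).range, ‖v i - v j‖ₑ ^ p.toReal * μ ((joint u) ⁻¹' {v})) ≠ ⊤ := by
      intro htop
      rw [htop, ENNReal.top_rpow_of_pos (by positivity)] at hlt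
      exact lt_irrefl _ hlt
    exact fun v hv => (ENNReal.sum_ne_top.mp hsum) v hv
  rw [PiLp.dist_eq_sum hq, eLpNorm_sub_eq_sum μ p hp0 hp u i j, ← ENNReal.toReal_rpow,
    ENNReal.toReal_sum hfin]
  congr 1
  rw [← Finset.sum_coe_sort (joint u).range, ← Equiv.sum_comp e]
  refine Finset.sum_congr rfl fun k _ => ?_
  rw [ENNReal.toReal_mul, ← ENNReal.toReal_rpow, toReal_enorm, Real.norm_eq_abs]
  exact coord_rpow _ _ _ _ ENNReal.toReal_nonneg hq

/-- A positive lower bound for the nonzero distances inside a finite family of points. -/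
theorem exists_min_pos_dist {X : Type*} [MetricSpace X] {n : ℕ} (f : Fin n → X) :
    ∃ δ : ℝ, 0 < δ ∧ ∀ i j, f i ≠ f j → δ ≤ dist (f i) (f j) := by
  classical
  let g : Fin n × Fin n → ℝ := fun q => if f q.1 = f q.2 then 1 else dist (f q.1) (f q.2)
  have hg : ∀ q, 0 < g q := by
    intro q
    by_cases h : f q.1 = f q.2
    · simp [g, h]
    · simp only [g, h, if_false]
      exact dist_pos.mpr h
  rcases isEmpty_or_nonempty (Fin n × Fin n) with hE | hN
  · exact ⟨1, one_pos, fun i j => (hE.false (i, j)).elim⟩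
  · obtain ⟨q₀, hq₀⟩ := Finite.exists_min g
    refine ⟨g q₀, hg q₀, fun i j hij => ?_⟩
    have h := hq₀ (i, j)
    simpa [g, hij] using h

/-- **Approximation lemma.** Finitely many points of `L_p(μ)` (any measure space, `1 ≤ p < ∞`)
are `(1 ± η)`-isometric to points of some `ℓ_p^m`. -/
theorem lp_approx (μ : Measure α) (p : ENNReal) [Fact (1 ≤ p)] (hp : p ≠ ⊤) (η : ℝ) (hη : 0 < η)
    (n : ℕ) (f : Fin n → Lp ℝ p μ) :
    ∃ (m : ℕ) (x : Fin n → PiLp p (fun _ : Fin m => ℝ)),
      ∀ i j, (1 - η) * dist (f i) (f j) ≤ dist (x i) (x j) ∧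
        dist (x i) (x j) ≤ (1 + η) * dist (f i) (f j) := by
  obtain ⟨δ, hδ, hmin⟩ := exists_min_pos_dist f
  have hpos : 0 < η * δ / 2 := by positivity
  -- a choice of simple approximants, as a function of the point of `L_p`
  have hdense : ∀ g : Lp ℝ p μ, ∃ s : Lp.simpleFunc ℝ p μ,
      dist g (s : Lp ℝ p μ) < η * δ / 2 := by
    intro g
    have hd := Lp.simpleFunc.dense (E := ℝ) (μ := μ) hp
    obtain ⟨s, hs, hds⟩ := hd.exists_dist_lt g hpos
    exact ⟨⟨s, hs⟩, hds⟩
  choose S hS using hdense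
  let u : Fin n → SimpleFunc α ℝ := fun i => Lp.simpleFunc.toSimpleFunc (S (f i))
  have hu : ∀ i, MemLp (u i) p μ := fun i => Lp.simpleFunc.memLp (S (f i))
  obtain ⟨m, x, hx⟩ := simple_isometric μ p hp u hu
  have hdist : ∀ i j, dist (x i) (x j) =
      dist ((S (f i) : Lp ℝ p μ)) (S (f j) : Lp ℝ p μ) := by
    intro i j
    rw [hx i j, Lp.dist_def]
    congr 1
    apply eLpNorm_congr_ae
    exact (Lp.simpleFunc.toSimpleFunc_eq_toFun (S (f i))).sub
      (Lp.simpleFunc.toSimpleFunc_eq_toFun (S (f j)))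
  refine ⟨m, x, fun i j => ?_⟩
  rw [hdist i j]
  by_cases hij : f i = f j
  · rw [hij]
    simp
  · have h1 := hmin i j hij
    have hi := hS (f i)
    have hj := hS (f j)
    have t1 : dist (S (f i) : Lp ℝ p μ) (S (f j)) ≤
        dist (S (f i) : Lp ℝ p μ) (f i) + dist (f i) (f j) + dist (f j) (S (f j)) :=
      dist_triangle4 _ _ _ _
    have t2 : dist (f i) (f j) ≤
        dist (f i) (S (f i) : Lp ℝ p μ) + dist (S (f i) : Lp ℝ p μ) (S (f j))
          + dist (S (f j) : Lp ℝ p μ) (f j) :=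
      dist_triangle4 _ _ _ _
    rw [dist_comm (S (f i) : Lp ℝ p μ) (f i)] at t1
    rw [dist_comm (S (f j) : Lp ℝ p μ) (f j)] at t2
    have h2 : η * δ ≤ η * dist (f i) (f j) := mul_le_mul_of_nonneg_left h1 hη.le
    constructor <;> nlinarith

end Vale.Agent.Lib.P249.H52
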