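import Vale.Agent.Lib.P249.helper75.KNN
import Vale.Agent.Lib.P249.helper21.LinEps
import Vale.Agent.Lib.P249.helper52.LpApprox

/-!
# `d_p(n, 1+ε) ≤ 290 · 76^p · ε⁻² · n · log n` for `n` points of an arbitrary `L_p(μ)`

`nlogn`: the weighted-coordinate-selection bound for `n` points of `ℓ_p^m`
(`289 · 76^p · ε⁻² · n · log n` coordinates).
`nlogn_lp`: the same order for `n` points of `L_p(μ)` over an arbitrary measure space, by
`lp_approx` (simple functions) and a rescaling.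
-/

namespace Vale.Agent.Lib.P249.H52

universe u

/-- `n ≥ 2` points of `ℓ_p^m`: a weighted selection of `d ≤ 289 · 76^p · ε⁻² · n · log n`
coordinates has distortion at most `1 + ε`. -/
theorem nlogn (p : ENNReal) [Fact (1 ≤ p)] (hp : p ≠ ⊤) (ε : ℝ) (hε : 0 < ε) (hε1 : ε ≤ 1)
    (n m : ℕ) (hn : 2 ≤ n) (x : Fin n → PiLp p (fun _ : Fin m => ℝ)) :
    ∃ (d : ℕ) (κ : Fin d → Fin m) (c : Fin d → ℝ),
      (d : ℝ) ≤ 289 * 76 ^ p.toReal / ε ^ 2 * n * Real.log n ∧
      ∀ i j,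
        dist (x i) (x j) ≤
            dist (WithLp.toLp p (fun l => c l * x i (κ l)) : PiLp p (fun _ : Fin d => ℝ))
              (WithLp.toLp p (fun l => c l * x j (κ l))) ∧
          dist (WithLp.toLp p (fun l => c l * x i (κ l)) : PiLp p (fun _ : Fin d => ℝ))
              (WithLp.toLp p (fun l => c l * x j (κ l))) ≤
            (1 + ε) * dist (x i) (x j) := by
  have hp1 : (1 : ENNReal) ≤ p := Fact.out
  have hq1 : 1 ≤ p.toReal := by
    have := ENNReal.toReal_mono hp hp1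
    simpa using this
  have h76 : (76 : ℝ) ≤ (76 : ℝ) ^ p.toReal := by
    have := Real.rpow_le_rpow_of_exponent_le (by norm_num : (1 : ℝ) ≤ 76) hq1
    simpa using this
  obtain ⟨d, κ, c, hd, hy⟩ := Vale.Agent.Lib.P249.H21.lin_eps_of_sens p hp
    ((76 : ℝ) ^ p.toReal) 0 (by linarith) le_rfl
    (fun n m _ x => by
      obtain ⟨s, hs0, hs, hS⟩ :=
        Vale.Agent.Lib.P249.H75.KNN.sens_knn p.toReal hq1 n m (fun i k => x i k)
      refine ⟨s, hs0, hs, ?_⟩
      rw [Real.rpow_zero, mul_one]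
      exact hS)
    ε hε hε1 n m hn x
  refine ⟨d, κ, c, le_trans hd ?_, hy⟩
  rw [zero_add, Real.rpow_one, Real.rpow_one]
  have hn' : (2 : ℝ) ≤ n := by exact_mod_cast hn
  have hlogn : 0 < Real.log n := Real.log_pos (by linarith)
  have hε2 : 0 < ε ^ 2 := by positivity
  have hl2 : (1 / 2 : ℝ) ≤ Real.log 2 := by
    have := Real.log_two_gt_d9
    linarith
  have h1 : 1 / Real.log 2 ≤ 2 := by
    rw [div_le_iff₀ (by linarith)]
    linarith
  have hC : 288 * (76 : ℝ) ^ p.toReal + 1 / Real.log 2 ≤ 289 * (76 : ℝ) ^ p.toReal := by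
    linarith
  have hfac : 0 ≤ 1 / ε ^ 2 * ((n : ℝ) * Real.log n) := by positivity
  calc (288 * (76 : ℝ) ^ p.toReal + 1 / Real.log 2) / ε ^ 2 * n * Real.log n
      = (288 * (76 : ℝ) ^ p.toReal + 1 / Real.log 2) * (1 / ε ^ 2 * ((n : ℝ) * Real.log n)) := by
        ring
    _ ≤ 289 * (76 : ℝ) ^ p.toReal * (1 / ε ^ 2 * ((n : ℝ) * Real.log n)) :=
        mul_le_mul_of_nonneg_right hC hfac
    _ = 289 * 76 ^ p.toReal / ε ^ 2 * n * Real.log n := by ring

/-- **`n` points of an arbitrary `L_p(μ)`.** For every measure space, `1 ≤ p < ∞`, `0 < ε ≤ 1`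
and `n ≥ 2` points of `L_p(μ)` there are `d ≤ 290 · 76^p · ε⁻² · n · log n` and `n` points of
`ℓ_p^d` whose distances are those of the given points up to the factor `1 + ε` (never
smaller). -/
theorem nlogn_lp {α : Type u} [MeasurableSpace α] (μ : MeasureTheory.Measure α)
    (p : ENNReal) [Fact (1 ≤ p)] (hp : p ≠ ⊤) (ε : ℝ) (hε : 0 < ε) (hε1 : ε ≤ 1)
    (n : ℕ) (hn : 2 ≤ n) (f : Fin n → MeasureTheory.Lp ℝ p μ) :
    ∃ (d : ℕ) (y : Fin n → PiLp p (fun _ : Fin d => ℝ)),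
      (d : ℝ) ≤ 290 * 76 ^ p.toReal / ε ^ 2 * n * Real.log n ∧
      ∀ i j, dist (f i) (f j) ≤ dist (y i) (y j) ∧
        dist (y i) (y j) ≤ (1 + ε) * dist (f i) (f j) := by
  have hη : 0 < ε / 3600 := by positivity
  have hη1 : 0 < 1 - ε / 3600 := by linarith
  have hε' : 0 < 599 / 600 * ε := by positivity
  have hε'1 : 599 / 600 * ε ≤ 1 := by linarith
  obtain ⟨m, x, hx⟩ := lp_approx μ p hp (ε / 3600) hη n f
  obtain ⟨d, κ, c, hd, hz⟩ := nlogn p hp (599 / 600 * ε) hε' hε'1 n m hn x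
  refine ⟨d, fun i => (1 - ε / 3600)⁻¹ •
    (WithLp.toLp p (fun l => c l * x i (κ l)) : PiLp p (fun _ : Fin d => ℝ)), ?_, ?_⟩
  · refine le_trans hd ?_
    have hn' : (2 : ℝ) ≤ n := by exact_mod_cast hn
    have hlogn : 0 < Real.log n := Real.log_pos (by linarith)
    have h76 : (0 : ℝ) < (76 : ℝ) ^ p.toReal := by positivity
    have hfac : 0 ≤ (76 : ℝ) ^ p.toReal * ((n : ℝ) * Real.log n) := by positivity
    have hε2 : 0 < ε ^ 2 := by positivity
    have hc : 289 / (599 / 600 * ε) ^ 2 ≤ 290 / ε ^ 2 := by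
      rw [div_le_div_iff₀ (by positivity) hε2]
      nlinarith
    calc 289 * (76 : ℝ) ^ p.toReal / (599 / 600 * ε) ^ 2 * n * Real.log n
        = 289 / (599 / 600 * ε) ^ 2 * ((76 : ℝ) ^ p.toReal * ((n : ℝ) * Real.log n)) := by ring
      _ ≤ 290 / ε ^ 2 * ((76 : ℝ) ^ p.toReal * ((n : ℝ) * Real.log n)) :=
          mul_le_mul_of_nonneg_right hc hfac
      _ = 290 * 76 ^ p.toReal / ε ^ 2 * n * Real.log n := by ring
  · intro i j
    obtain ⟨hx1, hx2⟩ := hx i j
    obtain ⟨hz1, hz2⟩ := hz i j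
    have hD : 0 ≤ dist (f i) (f j) := dist_nonneg
    have hinv : 0 < (1 - ε / 3600)⁻¹ := inv_pos.mpr hη1
    rw [dist_smul₀, Real.norm_eq_abs, abs_of_pos hinv]
    constructor
    · rw [← div_eq_inv_mul, le_div_iff₀ hη1]
      linarith
    · rw [← div_eq_inv_mul, div_le_iff₀ hη1]
      have h3 : (1 + 599 / 600 * ε) * dist (x i) (x j) ≤
          (1 + 599 / 600 * ε) * ((1 + ε / 3600) * dist (f i) (f j)) :=
        mul_le_mul_of_nonneg_left hx2 (by linarith)
      have h4 : (1 + 599 / 600 * ε) * (1 + ε / 3600) ≤ (1 + ε) * (1 - ε / 3600) := by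
        nlinarith
      have h5 := mul_le_mul_of_nonneg_right h4 hD
      nlinarith

end Vale.Agent.Lib.P249.H52
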